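import Vale.Agent.P112.S408.Graph
import Vale.Agent.P112.H213.Op

/-! P112: the link between the gluing of the vertical bands (DEC) and the graph bound. -/

namespace Vale.Agent.P112.S408

open MeasureTheory Filter Topology Set Vale.Agent.P112 Vale.Agent.P112.DEC
open scoped ENNReal NNReal

/-- the sum of the first `n` kernel pieces -/
noncomputable def etas (n : ℕ) (t : ℝ) : ℝ := ∑ l ∈ Finset.range n, eta (sc l) t

lemma sc_le_one (l : ℕ) : sc l ≤ 1 := by unfold sc; exact pow_le_one₀ (by norm_num) (by norm_num)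

lemma kok_etas (n : ℕ) : KOK (etas n) := by
  refine ⟨?_, ?_⟩
  · exact continuous_finsetSum _ fun l _ => continuous_eta (sc_pos l)
  · intro t ht
    refine Finset.sum_eq_zero fun l _ => ?_
    by_contra hne
    have := (eta_supp (sc_pos l) hne).2
    linarith [sc_le_one l]

theorem graphBound_of {ε₀ : ℝ≥0} (he : (ε₀ : ℝ) ≤ 1 / 2)
    (h : ∃ C : ℝ, 0 ≤ C ∧ ∀ u : ℝ × ℝ → ℝ, UOK ε₀ u → ∀ (n : ℕ) (F : ℝ × ℝ → ℝ), CC2 F →
      N (TT (etas n) u F) ≤ C * N F) : GraphBound ε₀ := by
  obtain ⟨C, hC, h⟩ := h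
  refine ⟨C + 1, by positivity, ?_⟩
  intro u hul hub n F hFc hFs
  have hu : UOK ε₀ u := by
    refine ⟨hul.continuous, ⟨ε₀, hub⟩, fun x y y' => ?_⟩
    have h1 := hul.dist_le_mul (x, y) (x, y')
    rw [Real.dist_eq, Prod.dist_eq] at h1
    simpa [Real.dist_eq] using h1
  have hF : CC2 F := ⟨hFc, hFs⟩
  have hT : CC2 (TT (etas n) u F) := TT_supp (kok_etas n) he hu hF
  have hmain := h u hu n F hF
  have hN : N (TT (etas n) u F) ^ 2 ≤ (C + 1) ^ 2 * N F ^ 2 := by
    rw [← mul_pow]
    refine pow_le_pow_left₀ (N_nonneg _) (hmain.trans ?_) 2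
    have := N_nonneg F
    nlinarith
  have e1 : ∀ p : ℝ × ℝ, ∑ l ∈ Finset.range n, ∫ t : ℝ, eta (sc l) t * F (p.1 - t, p.2 - t * u p) =
      TT (etas n) u F p := by
    intro p
    unfold TT etas
    rw [← integral_finsetSum]
    · refine integral_congr_ae (Eventually.of_forall fun t => ?_)
      simp only
      rw [Finset.sum_mul]
    · intro l _
      apply Continuous.integrable_of_hasCompactSupport
      · exact (continuous_eta (sc_pos l)).mul (hFc.comp (by fun_prop))
      · apply HasCompactSupport.mul_right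
        refine HasCompactSupport.intro (isCompact_Icc (a := -sc l) (b := sc l)) fun t ht => ?_
        by_contra hne
        have h := eta_supp (sc_pos l) hne
        apply ht
        rw [mem_Icc, ← abs_le]
        exact h.2.le
  simp only [e1]
  rw [← N_lint hT.bm, ← N_lint hF.bm, ← ENNReal.ofReal_mul (by positivity)]
  exact ENNReal.ofReal_le_ofReal hN

end Vale.Agent.P112.S408
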