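import Vale.Agent.P112.S408.Graph
import Vale.Agent.P112.ST.Local

/-! P112, step F2, part S2: from the fields `e + u e^⊥` to the unit fields close to `e`
(`t → t c(x)`; the sum over the scales telescopes, so only the two end scales matter), and the
composition: the graph bound on `ℝ × ℝ` gives Stein's inequality. -/

namespace Vale.Agent.P112.S408

open MeasureTheory Filter Topology Set Vale.Agent.P112
open scoped ENNReal NNReal RealInnerProductSpace

lemma enn_add_sq (x y : ℝ≥0∞) : (x + y) ^ 2 ≤ 2 * (x ^ 2 + y ^ 2) := by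
  rcases eq_or_ne x ⊤ with rfl | hx
  · simp
  rcases eq_or_ne y ⊤ with rfl | hy
  · simp
  lift x to ℝ≥0 using hx
  lift y to ℝ≥0 using hy
  norm_cast
  exact add_sq_le

/-- The dilated pieces telescope as well. -/
lemma sum_eta_c {c : ℝ} (hc : 0 < c) (l0 n : ℕ) (t : ℝ) :
    ∑ l ∈ Finset.range n, eta (c * sc (l0 + l)) t =
      (chi (2 ^ l0 * (t / c)) - chi (2 ^ (l0 + n) * (t / c))) / t := by
  have h1 : ∀ L : ℝ, eta (c * L) t = c⁻¹ * eta L (t / c) := by
    intro L
    have h := eta_scale hc L (t / c)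
    rw [mul_div_cancel₀ t hc.ne'] at h
    rw [← h, ← mul_assoc, inv_mul_cancel₀ hc.ne', one_mul]
  have h2 := sum_eta l0 n (t / c)
  calc ∑ l ∈ Finset.range n, eta (c * sc (l0 + l)) t
      = c⁻¹ * ∑ l ∈ Finset.range n, eta ((1 / 2) ^ (l0 + l)) (t / c) := by
        rw [Finset.mul_sum]
        exact Finset.sum_congr rfl fun l _ => h1 _
    _ = _ := by
        rw [h2]
        rcases eq_or_ne t 0 with rfl | ht
        · simp
        · field_simp

/-- the box kernel at scale `1 / N` -/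
noncomputable def boxk (N t : ℝ) : ℝ≥0∞ := if |t| ≤ 1 / N then ENNReal.ofReal (4 * N) else 0

lemma measurable_boxk (N : ℝ) : Measurable (boxk N) := by
  unfold boxk
  refine Measurable.ite ?_ measurable_const measurable_const
  exact measurableSet_le (by fun_prop) measurable_const

lemma lintegral_boxk {N : ℝ} (hN : 0 < N) : ∫⁻ t, boxk N t = 8 := by
  have h1 : boxk N = (Icc (-(1 / N)) (1 / N)).indicator (fun _ => ENNReal.ofReal (4 * N)) := by
    funext t
    unfold boxk
    rw [indicator_apply]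
    congr 1
    rw [mem_Icc, abs_le]
  rw [h1, lintegral_indicator measurableSet_Icc, setLIntegral_const, Real.volume_Icc,
    ← ENNReal.ofReal_mul (by positivity)]
  have h2 : 4 * N * (1 / N - -(1 / N)) = 8 := by field_simp; ring
  rw [h2]; norm_num

lemma chi_diff_bound {N c t : ℝ} (hN : 0 < N) (hc : 9 / 10 ≤ c) (hc1 : c ≤ 1) :
    ‖(chi (N * (t / c)) - chi (N * t)) / t‖ₑ ≤ boxk N t := by
  have hc0 : 0 < c := by linarith
  by_cases h1 : |t| ≤ 1 / N
  · have hb : boxk N t = ENNReal.ofReal (4 * N) := by unfold boxk; rw [if_pos h1]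
    rw [hb, Real.enorm_eq_ofReal_abs]
    apply ENNReal.ofReal_le_ofReal
    by_cases h2 : N * |t| ≤ 9 / 20
    · have h3 : |N * (t / c)| ≤ 1 / 2 := by
        rw [abs_mul, abs_div, abs_of_pos hN, abs_of_pos hc0, mul_div_assoc', div_le_iff₀ hc0]
        linarith
      have h4 : |N * t| ≤ 1 / 2 := by
        rw [abs_mul, abs_of_pos hN]; linarith
      rw [chi_eq_one h3, chi_eq_one h4, sub_self, zero_div, abs_zero]
      positivity
    · push Not at h2
      have ht : 0 < |t| := by
        by_contra h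
        have : |t| = 0 := le_antisymm (not_lt.mp h) (abs_nonneg t)
        rw [this, mul_zero] at h2; linarith
      rw [abs_div, div_le_iff₀ ht]
      have h3 : |chi (N * (t / c)) - chi (N * t)| ≤ 1 := by
        rw [abs_le]
        constructor <;> linarith [chi_nonneg (N * (t / c)), chi_nonneg (N * t),
          chi_le_one (N * (t / c)), chi_le_one (N * t)]
      nlinarith
  · push Not at h1
    have h2 : 1 < N * |t| := by
      rw [div_lt_iff₀ hN] at h1; linarith
    have h3 : 1 ≤ |N * (t / c)| := by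
      rw [abs_mul, abs_div, abs_of_pos hN, abs_of_pos hc0, mul_div_assoc', le_div_iff₀ hc0]
      linarith
    have h4 : 1 ≤ |N * t| := by
      rw [abs_mul, abs_of_pos hN]; linarith
    rw [chi_eq_zero h3, chi_eq_zero h4, sub_self, zero_div]
    simp

/-- `L²` bound for the box averages along a Lipschitz field. -/
lemma box_avg {g : Plane → Plane} (hg : LipschitzWith 2 g) {N : ℝ} (hN : 8 ≤ N) (F : Plane → ℝ)
    (hF : Continuous F) :
    ∫⁻ x, (∫⁻ t, boxk N t * ‖F (x - t • g x)‖ₑ) ^ 2 ≤ 256 * sqn F := by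
  have hN0 : 0 < N := by linarith
  have hgc := hg.continuous
  have hS : Measurable (fun p : ℝ × Plane => p.2 - p.1 • g p.2) := by
    apply Continuous.measurable
    fun_prop
  have h := lintegral_avg_sq_le (volume : Measure ℝ) (boxk N) (measurable_boxk N)
    (fun t x => x - t • g x) hS 4 ?_ (fun x => ‖F x‖ₑ) hF.measurable.enorm
  · rw [lintegral_boxk hN0] at h
    refine h.trans (le_of_eq ?_)
    unfold sqn
    congr 1
    norm_num
  · intro t ht G hG
    have h1 : |t| ≤ 1 / N := by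
      by_contra hne
      apply ht
      unfold boxk
      rw [if_neg hne]
    have h2 : |t| ≤ 1 / 8 := h1.trans (one_div_le_one_div_of_le (by norm_num) hN)
    refine pieces_comp_le (c := 2 * |t|) (by positivity) (by linarith) ?_ G hG
    intro x y
    have h3 : ((x - t • g x) - x) - ((y - t • g y) - y) = - (t • (g x - g y)) := by
      rw [smul_sub]; abel
    rw [h3, norm_neg, norm_smul, Real.norm_eq_abs]
    have h4 := hg.dist_le_mul x y
    rw [dist_eq_norm, dist_eq_norm] at h4
    have h5 : ((2 : ℝ≥0) : ℝ) = 2 := rfl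
    rw [h5] at h4
    calc |t| * ‖g x - g y‖ ≤ |t| * (2 * ‖x - y‖) := by gcongr
      _ = 2 * |t| * ‖x - y‖ := by ring

lemma integrable_eta_mul {L : ℝ} (hL : 0 < L) {Φ : ℝ → ℝ} (hΦ : Continuous Φ) :
    Integrable (fun t => eta L t * Φ t) := by
  apply Continuous.integrable_of_hasCompactSupport ((continuous_eta hL).mul hΦ)
  apply HasCompactSupport.mul_right
  refine HasCompactSupport.intro (isCompact_Icc (a := -L) (b := L)) fun t ht => ?_
  by_contra hne
  have h := eta_supp hL hne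
  apply ht
  rw [mem_Icc, ← abs_le]
  exact h.2.le

/-- The pieces along `c g` and along `g` differ by two box averages. -/
lemma pieces_diff {c : ℝ} (hc : 9 / 10 ≤ c) (hc1 : c ≤ 1) (l0 n : ℕ) {Φ : ℝ → ℝ}
    (hΦ : Continuous Φ) :
    ‖∑ l ∈ Finset.range n, ∫ t, eta (sc (l0 + l)) t * Φ (c * t)‖ₑ ≤
      ‖∑ l ∈ Finset.range n, ∫ t, eta (sc (l0 + l)) t * Φ t‖ₑ +
        ((∫⁻ t, boxk (2 ^ l0) t * ‖Φ t‖ₑ) + ∫⁻ t, boxk (2 ^ (l0 + n)) t * ‖Φ t‖ₑ) := by
  have hc0 : 0 < c := by linarith
  have h1 : ∀ l, ∫ t, eta (sc (l0 + l)) t * Φ (c * t) = ∫ t, eta (c * sc (l0 + l)) t * Φ t :=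
    fun l => (integral_eta_scale hc0 _ Φ).symm
  simp only [h1]
  have hi1 : ∀ l, Integrable (fun t => eta (c * sc (l0 + l)) t * Φ t) := fun l =>
    integrable_eta_mul (mul_pos hc0 (sc_pos _)) hΦ
  have hi2 : ∀ l, Integrable (fun t => eta (sc (l0 + l)) t * Φ t) := fun l =>
    integrable_eta_mul (sc_pos _) hΦ
  have h2 : (∑ l ∈ Finset.range n, ∫ t, eta (c * sc (l0 + l)) t * Φ t) -
      (∑ l ∈ Finset.range n, ∫ t, eta (sc (l0 + l)) t * Φ t) =
      ∫ t, ((chi (2 ^ l0 * (t / c)) - chi (2 ^ l0 * t)) / t -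
        (chi (2 ^ (l0 + n) * (t / c)) - chi (2 ^ (l0 + n) * t)) / t) * Φ t := by
    rw [← Finset.sum_sub_distrib]
    simp only [← integral_sub (hi1 _) (hi2 _)]
    have hi3 : ∀ l ∈ Finset.range n, Integrable (fun t =>
        eta (c * sc (l0 + l)) t * Φ t - eta (sc (l0 + l)) t * Φ t) :=
      fun l _ => (hi1 l).sub (hi2 l)
    rw [← integral_finsetSum _ hi3]
    refine integral_congr_ae (Eventually.of_forall fun t => ?_)
    simp only
    have h3 := sum_eta_c hc0 l0 n t
    have h4 := sum_eta l0 n t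
    have h5 : ∑ l ∈ Finset.range n, (eta (c * sc (l0 + l)) t * Φ t - eta (sc (l0 + l)) t * Φ t) =
        (∑ l ∈ Finset.range n, eta (c * sc (l0 + l)) t -
          ∑ l ∈ Finset.range n, eta ((1 / 2) ^ (l0 + l)) t) * Φ t := by
      rw [Finset.sum_sub_distrib, sub_mul, Finset.sum_mul, Finset.sum_mul]
      rfl
    rw [h5, h3, h4]
    ring
  have h6 : (∑ l ∈ Finset.range n, ∫ t, eta (c * sc (l0 + l)) t * Φ t) =
      (∑ l ∈ Finset.range n, ∫ t, eta (sc (l0 + l)) t * Φ t) +
      ∫ t, ((chi (2 ^ l0 * (t / c)) - chi (2 ^ l0 * t)) / t -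
        (chi (2 ^ (l0 + n) * (t / c)) - chi (2 ^ (l0 + n) * t)) / t) * Φ t := by
    rw [← h2]; ring
  rw [h6]
  refine (enorm_add_le _ _).trans ?_
  gcongr
  have hb : Measurable fun t => boxk (2 ^ l0) t * ‖Φ t‖ₑ :=
    (measurable_boxk _).mul hΦ.measurable.enorm
  rw [← lintegral_add_left hb]
  refine (enorm_integral_le_lintegral_enorm _).trans (lintegral_mono fun t => ?_)
  simp only
  rw [enorm_mul, ← add_mul]
  gcongr
  refine (enorm_sub_le).trans ?_
  gcongr
  · exact chi_diff_bound (by positivity) hc hc1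
  · exact chi_diff_bound (by positivity) hc hc1

/-- The graph bound gives the uniform bound for the unit fields close to a fixed direction. -/
theorem unitGraph_of_graphBound {ε₀ : ℝ≥0} (hε : 0 < ε₀) (h : GraphBound ε₀) :
    ∃ (m : ℕ) (C : ℝ), UnitGraph m C := by
  obtain ⟨C, hC, m, h⟩ := planeGraph hε h
  refine ⟨m + 3, √(2 * C ^ 2 + 2048), ?_⟩
  intro e he w hwl hwu hwe l0 n hl0 F hF
  rw [Real.sq_sqrt (by positivity)]
  obtain ⟨b, hb⟩ := far_exists_basis e he
  -- coordinates of `w`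
  set A : Plane → ℝ := fun x => ⟪b 0, w x⟫ with hA
  set B : Plane → ℝ := fun x => ⟪b 1, w x⟫ with hB
  have hA9 : ∀ x, 9 / 10 ≤ A x := by
    intro x
    have := hwe x
    rw [real_inner_comm] at this
    rw [hA]; simp only; rw [hb]; exact this
  have hw : ∀ x, A x • b 0 + B x • b 1 = w x := fun x => cmb_inner b (w x)
  have hAB : ∀ x, A x ^ 2 + B x ^ 2 = 1 := by
    intro x
    have h1 := b.sum_sq_norm_inner_right (w x)
    rw [Fin.sum_univ_two, hwu x] at h1
    rw [Real.norm_eq_abs, Real.norm_eq_abs, sq_abs, sq_abs] at h1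
    rw [h1]; norm_num
  have hA1 : ∀ x, A x ≤ 1 := fun x => by nlinarith [hAB x, hA9 x, sq_nonneg (B x)]
  have hB1 : ∀ x, |B x| ≤ 9 / 20 := by
    intro x
    apply abs_le_of_sq_le_sq _ (by norm_num)
    nlinarith [hAB x, hA9 x]
  have hAl : ∀ x y, |A x - A y| ≤ ‖x - y‖ := by
    intro x y
    have h1 : A x - A y = ⟪b 0, w x - w y⟫ := by rw [inner_sub_right]
    rw [h1]
    have h2 := abs_real_inner_le_norm (b 0) (w x - w y)
    rw [b.norm_eq_one, one_mul] at h2
    have h3 := hwl.dist_le_mul x y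
    rw [dist_eq_norm, dist_eq_norm] at h3
    simp only [NNReal.coe_one, one_mul] at h3
    exact h2.trans h3
  have hBl : ∀ x y, |B x - B y| ≤ ‖x - y‖ := by
    intro x y
    have h1 : B x - B y = ⟪b 1, w x - w y⟫ := by rw [inner_sub_right]
    rw [h1]
    have h2 := abs_real_inner_le_norm (b 1) (w x - w y)
    rw [b.norm_eq_one, one_mul] at h2
    have h3 := hwl.dist_le_mul x y
    rw [dist_eq_norm, dist_eq_norm] at h3
    simp only [NNReal.coe_one, one_mul] at h3
    exact h2.trans h3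
  set u : Plane → ℝ := fun x => B x / A x with hu
  have hApos : ∀ x, 0 < A x := fun x => by linarith [hA9 x]
  have hub : ∀ x, |u x| ≤ 1 / 2 := by
    intro x
    rw [hu]; simp only
    rw [abs_div, abs_of_pos (hApos x), div_le_iff₀ (hApos x)]
    linarith [hB1 x, hA9 x]
  have hul : LipschitzWith 2 u := by
    refine LipschitzWith.of_dist_le_mul fun x y => ?_
    rw [Real.dist_eq, dist_eq_norm]
    have h5 : ((2 : ℝ≥0) : ℝ) = 2 := rfl
    rw [h5]
    have h1 : u x - u y = (B x - B y) / A x - u y * (A x - A y) / A x := by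
      rw [hu]; simp only
      have := (hApos x).ne'
      have := (hApos y).ne'
      field_simp
      ring
    rw [h1]
    refine (abs_sub _ _).trans ?_
    rw [abs_div, abs_div, abs_mul, abs_of_pos (hApos x), ← add_div, div_le_iff₀ (hApos x)]
    have h2 := hub y
    have h3 := hAl x y
    have h4 := hBl x y
    have h6 := hA9 x
    have h7 := norm_nonneg (x - y)
    nlinarith [abs_nonneg (A x - A y), abs_nonneg (u y)]
  have hwg : ∀ x, w x = A x • gf b u x := by
    intro x
    unfold gf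
    rw [smul_add, smul_smul, hu]
    simp only
    rw [mul_div_cancel₀ _ (hApos x).ne', hw x]
  have hg2 : LipschitzWith 2 (gf b u) := by
    refine LipschitzWith.of_dist_le_mul fun x y => ?_
    have h1 := hul.dist_le_mul x y
    rw [dist_eq_norm]
    have h2 : gf b u x - gf b u y = (u x - u y) • b 1 := by
      unfold gf; rw [sub_smul]; abel
    rw [h2, norm_smul, b.norm_eq_one, mul_one]
    exact h1
  have hlo : m ≤ l0 := by omega
  have hmain := h b u hul (fun x => (hub x).trans (by norm_num)) l0 n hlo F hF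
  have h8 : (8 : ℝ) ≤ 2 ^ l0 := by
    calc (8 : ℝ) = 2 ^ 3 := by norm_num
      _ ≤ 2 ^ l0 := pow_le_pow_right₀ (by norm_num) (by omega)
  have h8' : (8 : ℝ) ≤ 2 ^ (l0 + n) :=
    h8.trans (pow_le_pow_right₀ (by norm_num) (by omega))
  have ha1 := box_avg hg2 h8 F hF.1
  have ha2 := box_avg hg2 h8' F hF.1
  have hgc := hg2.continuous
  have hm1 : Measurable (∑ l ∈ Finset.range n, Tp (gf b u) (sc (l0 + l)) F) :=
    final_measurable_sum (continuous_gf b hul.continuous) hF.1 l0 n
  have hFg : Measurable (fun p : Plane × ℝ => ‖F (p.1 - p.2 • gf b u p.1)‖ₑ) := by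
    apply Measurable.enorm
    apply Continuous.measurable
    exact hF.1.comp (by fun_prop)
  have hm2 : ∀ N : ℝ, Measurable (fun x => ∫⁻ t, boxk N t * ‖F (x - t • gf b u x)‖ₑ) := by
    intro N
    exact (((measurable_boxk N).comp measurable_snd).mul hFg).lintegral_prod_right'
  have hpt : ∀ x, ‖(∑ l ∈ Finset.range n, Tp w (sc (l0 + l)) F) x‖ₑ ≤
      ‖(∑ l ∈ Finset.range n, Tp (gf b u) (sc (l0 + l)) F) x‖ₑ +
        ((∫⁻ t, boxk (2 ^ l0) t * ‖F (x - t • gf b u x)‖ₑ) +
          ∫⁻ t, boxk (2 ^ (l0 + n)) t * ‖F (x - t • gf b u x)‖ₑ) := by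
    intro x
    rw [Finset.sum_apply, Finset.sum_apply]
    have hΦ : Continuous (fun t : ℝ => F (x - t • gf b u x)) := hF.1.comp (by fun_prop)
    have h1 := pieces_diff (hA9 x) (hA1 x) l0 n hΦ
    unfold Tp
    rw [hwg x]
    simp only [smul_smul]
    simp only [mul_comm (A x)] at h1
    exact h1
  calc sqn (∑ l ∈ Finset.range n, Tp w (sc (l0 + l)) F)
      ≤ ∫⁻ x, (2 * (‖(∑ l ∈ Finset.range n, Tp (gf b u) (sc (l0 + l)) F) x‖ₑ ^ 2 +
        2 * ((∫⁻ t, boxk (2 ^ l0) t * ‖F (x - t • gf b u x)‖ₑ) ^ 2 +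
          (∫⁻ t, boxk (2 ^ (l0 + n)) t * ‖F (x - t • gf b u x)‖ₑ) ^ 2))) := by
        unfold sqn
        refine lintegral_mono fun x => ?_
        refine (pow_le_pow_left' (hpt x) 2).trans ((enn_add_sq _ _).trans ?_)
        gcongr
        exact enn_add_sq _ _
    _ = 2 * (sqn (∑ l ∈ Finset.range n, Tp (gf b u) (sc (l0 + l)) F) +
        2 * ((∫⁻ x, (∫⁻ t, boxk (2 ^ l0) t * ‖F (x - t • gf b u x)‖ₑ) ^ 2) +
          ∫⁻ x, (∫⁻ t, boxk (2 ^ (l0 + n)) t * ‖F (x - t • gf b u x)‖ₑ) ^ 2)) := by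
        have e1 := (hm2 (2 ^ l0)).pow_const 2
        have e2 := (hm2 (2 ^ (l0 + n))).pow_const 2
        have e3 := hm1.enorm.pow_const 2
        rw [lintegral_const_mul' _ _ (by norm_num),
          lintegral_add_left e3, lintegral_const_mul' _ _ (by norm_num), lintegral_add_left e1]
        rfl
    _ ≤ 2 * (ENNReal.ofReal (C ^ 2) * sqn F + 2 * (256 * sqn F + 256 * sqn F)) := by
        gcongr
    _ = ENNReal.ofReal (2 * C ^ 2 + 2048) * sqn F := by
        rw [ENNReal.ofReal_add (by positivity) (by norm_num), ENNReal.ofReal_mul (by norm_num),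
          add_mul]
        have h9 : ENNReal.ofReal 2048 = 2048 := by norm_num
        have h10 : ENNReal.ofReal 2 = 2 := by norm_num
        rw [h9, h10, ← add_mul]
        ring

/-- **Block F2.** The graph bound on `ℝ × ℝ` gives Stein's inequality for every unit field with
Lipschitz constant at most one, for all scales `a ≤ 1`, with one constant. -/
theorem stein_of_graphBound {ε₀ : ℝ≥0} (hε : 0 < ε₀) (h : GraphBound ε₀) :
    ∃ C : ℝ, 0 < C ∧ ∀ v : Plane → Plane, (∀ x, ‖v x‖ = 1) → LipschitzWith 1 v →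
      ∀ a : ℝ, 0 < a → a ≤ 1 → StrongType v a C ∧ WeakType v a C := by
  obtain ⟨m, C, h1⟩ := unitGraph_of_graphBound hε h
  exact stein_of_unitGraph h1

end Vale.Agent.P112.S408
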