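import Vale.Agent.P112.H213.Tasks
import Vale.Agent.P112.H967.Dir
import Vale.Agent.P112.H889.Dy

/-! P112, DEC: the vertical maximal functions MX1, MX2. -/

namespace Vale.Agent.P112.DEC

open MeasureTheory Set Metric Vale.Agent.P112.HL
open scoped ENNReal NNReal

lemma CM_two_ne_top : CM 2 ≠ ⊤ := CM_ne_top 2

/-- the common step: pointwise domination by the vertical maximal function -/
theorem N_le_of_MV {A : ℝ} (hA : 0 ≤ A) {G F : ℝ × ℝ → ℝ} (hG : BM2 G) (hF : BM2 F)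
    (h : ∀ z, ‖G z‖ₑ ≤ ENNReal.ofReal A * MV (fun w => ‖F w‖ₑ) z) :
    N G ≤ (A * Real.sqrt (CM 2).toReal) * N F := by
  refine N_le_of_lint hG hF (by positivity) ?_
  have hFm : Measurable fun w : ℝ × ℝ => ‖F w‖ₑ := hF.meas.enorm
  have h2 := strong_MV (p := 2) (by norm_num) hFm
  have e1 : ∀ a : ℝ≥0∞, a ^ (2 : ℝ) = a ^ 2 := fun a => ENNReal.rpow_two a
  simp only [e1] at h2
  calc ∫⁻ z, ‖G z‖ₑ ^ 2
      ≤ ∫⁻ z, ENNReal.ofReal A ^ 2 * MV (fun w => ‖F w‖ₑ) z ^ 2 := by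
        refine lintegral_mono fun z => ?_
        rw [← mul_pow]
        exact pow_le_pow_left' (h z) 2
    _ = ENNReal.ofReal A ^ 2 * ∫⁻ z, MV (fun w => ‖F w‖ₑ) z ^ 2 :=
        lintegral_const_mul _ ((measurable_MV hFm).pow_const 2)
    _ ≤ ENNReal.ofReal A ^ 2 * (CM 2 * ∫⁻ z, ‖F z‖ₑ ^ 2) := by gcongr
    _ = ENNReal.ofReal ((A * Real.sqrt (CM 2).toReal) ^ 2) * ∫⁻ z, ‖F z‖ₑ ^ 2 := by
        rw [mul_pow, Real.sq_sqrt ENNReal.toReal_nonneg, ENNReal.ofReal_mul (by positivity),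
          ENNReal.ofReal_pow hA, ENNReal.ofReal_toReal CM_two_ne_top, mul_assoc]

/-- averages over symmetric intervals -/
lemma ball_le_MV (f : ℝ × ℝ → ℝ≥0∞) (z : ℝ × ℝ) {r : ℝ} (hr : 0 < r) :
    ∫⁻ s in ball 0 r, f (z.1, z.2 - s) ≤ ENNReal.ofReal (2 * r) * MV f z := by
  have h1 : ∫⁻ s in ball 0 r, f (z.1, z.2 - s) = ∫⁻ t in ball z.2 r, f (z.1, t) := by
    rw [← lintegral_indicator measurableSet_ball, ← lintegral_indicator measurableSet_ball,
      ← lintegral_sub_left_eq_self (fun t => (ball z.2 r).indicator (fun t => f (z.1, t)) t) z.2]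
    refine lintegral_congr fun s => ?_
    have hiff : s ∈ ball (0 : ℝ) r ↔ z.2 - s ∈ ball z.2 r := by
      rw [mem_ball, mem_ball, Real.dist_eq, Real.dist_eq, sub_zero, sub_sub_cancel_left, abs_neg]
    by_cases hs : s ∈ ball (0 : ℝ) r
    · rw [indicator_of_mem hs, indicator_of_mem (hiff.1 hs)]
    · rw [indicator_of_notMem hs, indicator_of_notMem (fun h => hs (hiff.2 h))]
  have h2 := avg_le_MF (fun t => f (z.1, t)) (x := z.2) (c := z.2) (r := r) (mem_ball_self hr)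
  rw [ENNReal.div_le_iff (by rw [Ne, ENNReal.ofReal_eq_zero]; linarith) ENNReal.ofReal_ne_top] at h2
  rw [h1, mul_comm]
  exact h2

theorem mx1 : MX1 := by
  intro φ hφ
  obtain ⟨M, hM⟩ := hφ.bdd
  obtain ⟨R, hR0, hR⟩ := hφ.exists_supp
  have hM0 : 0 ≤ M := (abs_nonneg _).trans (hM 0)
  refine ⟨(M * (2 * (R + 1))) * Real.sqrt (CM 2).toReal + 1, by positivity, ?_⟩
  intro F hF G hG h
  have key : N G ≤ ((M * (2 * (R + 1))) * Real.sqrt (CM 2).toReal) * N F := by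
    refine N_le_of_MV (by positivity) hG hF.bm fun z => ?_
    obtain ⟨k, hk⟩ := h z
    have h1 : ‖G z‖ₑ ≤ ‖cy (dil k φ) F z‖ₑ := by
      rw [Real.enorm_eq_ofReal_abs, Real.enorm_eq_ofReal_abs]
      exact ENNReal.ofReal_le_ofReal hk
    have hk2 : (0 : ℝ) < 2 ^ k := by positivity
    have h2 : ∀ s : ℝ, ‖dil k φ s‖ₑ * ‖F (z.1, z.2 - s)‖ₑ ≤
        (ball (0 : ℝ) ((R + 1) * (2 ^ k)⁻¹)).indicator
          (fun s => ENNReal.ofReal (2 ^ k * M) * ‖F (z.1, z.2 - s)‖ₑ) s := by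
      intro s
      by_cases hs : s ∈ ball (0 : ℝ) ((R + 1) * (2 ^ k)⁻¹)
      · rw [indicator_of_mem hs]
        gcongr
        rw [Real.enorm_eq_ofReal_abs]
        apply ENNReal.ofReal_le_ofReal
        unfold dil
        rw [abs_mul, abs_of_pos hk2]
        gcongr
        exact hM _
      · rw [indicator_of_notMem hs]
        have h3 : dil k φ s = 0 := by
          unfold dil
          rw [hR, mul_zero]
          rw [mem_ball, Real.dist_eq, sub_zero, not_lt] at hs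
          rw [abs_mul, abs_of_pos hk2]
          have h4 : 2 ^ k * ((R + 1) * (2 ^ k)⁻¹) ≤ 2 ^ k * |s| := by gcongr
          have h5 : 2 ^ k * ((R + 1) * (2 ^ k)⁻¹) = R + 1 := by field_simp
          linarith
        rw [h3]; simp
    calc ‖G z‖ₑ ≤ ∫⁻ s, ‖dil k φ s‖ₑ * ‖F (z.1, z.2 - s)‖ₑ := h1.trans (enorm_cy_le F z)
      _ ≤ ∫⁻ s, (ball (0 : ℝ) ((R + 1) * (2 ^ k)⁻¹)).indicator
          (fun s => ENNReal.ofReal (2 ^ k * M) * ‖F (z.1, z.2 - s)‖ₑ) s := lintegral_mono h2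
      _ = ENNReal.ofReal (2 ^ k * M) *
          ∫⁻ s in ball 0 ((R + 1) * (2 ^ k)⁻¹), ‖F (z.1, z.2 - s)‖ₑ := by
          rw [lintegral_indicator measurableSet_ball, lintegral_const_mul' _ _ ENNReal.ofReal_ne_top]
      _ ≤ ENNReal.ofReal (2 ^ k * M) * (ENNReal.ofReal (2 * ((R + 1) * (2 ^ k)⁻¹)) *
          MV (fun w => ‖F w‖ₑ) z) := by
          gcongr
          exact ball_le_MV (fun w => ‖F w‖ₑ) z (by positivity)
      _ = ENNReal.ofReal (M * (2 * (R + 1))) * MV (fun w => ‖F w‖ₑ) z := by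
          rw [← mul_assoc, ← ENNReal.ofReal_mul (by positivity)]
          congr 2
          field_simp
  have := N_nonneg F
  linarith

/-- the dyadic average is dominated by the maximal function -/
lemma hv_le_MV (j : ℤ) {f : ℝ × ℝ → ℝ} (z : ℝ × ℝ) :
    ‖hv j f z‖ₑ ≤ ENNReal.ofReal 3 * MV (fun w => ‖f w‖ₑ) z := by
  have hj : (0 : ℝ) < 2 ^ j := by positivity
  have hj' : (0 : ℝ) < (2 ^ j)⁻¹ := by positivity
  have hsub : cell j (dix j z.2) ⊆ ball z.2 (3 / 2 * (2 ^ j)⁻¹) := by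
    intro t ht
    have h1 : z.2 ∈ cell j (dix j z.2) := mem_cell.2 rfl
    unfold cell at ht h1
    rw [zpow_neg] at ht h1
    rw [mem_ball, Real.dist_eq, abs_lt]
    constructor <;> nlinarith [ht.1, ht.2, h1.1, h1.2]
  unfold hv
  rw [hav_cell, enorm_mul]
  have h2 : ‖(2 : ℝ) ^ j‖ₑ = ENNReal.ofReal (2 ^ j) := by
    rw [Real.enorm_eq_ofReal_abs, abs_of_pos hj]
  rw [h2]
  calc ENNReal.ofReal (2 ^ j) * ‖∫ s in cell j (dix j z.2), f (z.1, s)‖ₑ
      ≤ ENNReal.ofReal (2 ^ j) * ∫⁻ s in ball z.2 (3 / 2 * (2 ^ j)⁻¹), ‖f (z.1, s)‖ₑ := by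
        gcongr
        exact (enorm_integral_le_lintegral_enorm _).trans (lintegral_mono_set hsub)
    _ ≤ ENNReal.ofReal (2 ^ j) * (MV (fun w => ‖f w‖ₑ) z *
        ENNReal.ofReal (2 * (3 / 2 * (2 ^ j)⁻¹))) := by
        gcongr
        have h3 := avg_le_MF (fun t => ‖f (z.1, t)‖ₑ) (x := z.2) (c := z.2)
          (r := 3 / 2 * (2 ^ j)⁻¹) (mem_ball_self (by positivity))
        rwa [ENNReal.div_le_iff (by rw [Ne, ENNReal.ofReal_eq_zero, not_le]; positivity)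
          ENNReal.ofReal_ne_top] at h3
    _ = ENNReal.ofReal 3 * MV (fun w => ‖f w‖ₑ) z := by
        rw [mul_comm (MV _ z), ← mul_assoc, ← ENNReal.ofReal_mul (by positivity)]
        congr 2
        field_simp

theorem mx2 : MX2 := by
  refine ⟨3 * Real.sqrt (CM 2).toReal + 1, by positivity, ?_⟩
  intro f hf _ G hG h
  have key : N G ≤ (3 * Real.sqrt (CM 2).toReal) * N f := by
    refine N_le_of_MV (by norm_num) hG hf fun z => ?_
    obtain ⟨j, hj⟩ := h z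
    refine le_trans ?_ (hv_le_MV j z)
    rw [Real.enorm_eq_ofReal_abs, Real.enorm_eq_ofReal_abs]
    exact ENNReal.ofReal_le_ofReal (hj.trans (le_abs_self _))
  have := N_nonneg f
  linarith

end Vale.Agent.P112.DEC
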