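import Vale.Agent.P112.T.Basic

/-!
# P112, [BOOT]: the restricted bound from one decomposition step

`Restr κ e` : the restricted bound with a logarithmic gain, for all convex families of pairs.
`Dec κ e`   : the output of the machine for one family (density classes `ν`, ranks `r`): a main part
`H ν r` and a fringe family `Fr ν r` on a very small set.
`restr_of_dec : Dec κ e → Restr κ e`.
-/

open MeasureTheory Set Filter Topology
open scoped ContDiff ENNReal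

namespace Vale.Agent.P112.S408

open Vale.Agent.P112.T

variable {M : ℕ}

/-- Admissible fields: measurable, bounded (the bound never enters a constant), `e`-Lipschitz in
the second variable. -/
structure FOK (e : ℝ) (u : ℝ × ℝ → ℝ) : Prop where
  meas : Measurable u
  bdd : ∃ U, ∀ z, |u z| ≤ U
  lip : ∀ x y y', |u (x, y) - u (x, y')| ≤ e * |y - y'|

lemma FOK.field {e : ℝ} {u : ℝ × ℝ → ℝ} (h : FOK e u) : Field u := ⟨h.meas, h.bdd⟩

/-- Convex measurable families of pairs `(z, j)`, `j < n`, over the unit interval. -/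
structure Fam (n : ℕ) (E : ℕ → Set (ℝ × ℝ)) : Prop where
  meas : ∀ j, MeasurableSet (E j)
  conv : ∀ z, ∀ i j k : ℕ, i ≤ j → j ≤ k → k < n → z ∈ E i → z ∈ E k → z ∈ E j
  unit : ∀ j, ∀ z ∈ E j, 0 ≤ z.1 ∧ z.1 < 1

/-- The right-hand side of the restricted bound. -/
noncomputable def Psi (a b : ℝ) : ℝ := √(a * b) * (1 + |Real.logb 2 (a / b)|)⁻¹ ^ 2

/-- The restricted bound with gain. -/
def Restr (κ : Ker M) (e : ℝ) : Prop := ∃ C : ℝ, 0 ≤ C ∧
  ∀ u : ℝ × ℝ → ℝ, FOK e u → ∀ (n : ℕ) (E : ℕ → Set (ℝ × ℝ)), Fam n E →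
  ∀ g : ℝ × ℝ → ℝ, Nice g → (∀ z, |g z| ≤ 1) →
  ∀ f : ℝ × ℝ → ℝ, Nice f → (∀ z, |f z| ≤ 1) →
  ∀ a b : ℝ, 0 < a → 0 < b → volume (Un E n) ≤ ENNReal.ofReal a →
    volume (Function.support f) ≤ ENNReal.ofReal b →
    |∫ ζ, f ζ * κ.FS u g E n ζ| ≤ C * Psi a b

/-- The output of the machine for one convex family `E`: density classes `ν`, ranks `r`.
`n₀` is a free parameter which makes the fringe as small as we like; `B₁` is the range of
`(ν, r)` in which the gain (4) is needed. The constants `c, C` do not depend on `n₀, B₁`. -/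
def Dec (κ : Ker M) (e : ℝ) : Prop := ∃ c C : ℝ, 0 < c ∧ c ≤ 1 ∧ 0 < C ∧
  ∀ B₁ n₀ : ℕ, ∃ C₁ : ℝ, 0 ≤ C₁ ∧
  ∀ u : ℝ × ℝ → ℝ, FOK e u → ∀ (n : ℕ) (E : ℕ → Set (ℝ × ℝ)), Fam n E →
  ∀ g : ℝ × ℝ → ℝ, Nice g → (∀ z, |g z| ≤ 1) →
  ∀ a : ℝ, 0 < a → volume (Un E n) ≤ ENNReal.ofReal a →
  ∃ (H : ℕ → ℕ → ℝ × ℝ → ℝ) (Fr : ℕ → ℕ → ℕ → Set (ℝ × ℝ)) (R : ℕ → ℕ),
    (∀ ν r, Fam n (Fr ν r) ∧
      volume (Un (Fr ν r) n) ≤ ENNReal.ofReal (C * (2 : ℝ) ^ (-(c * (ν + r + n₀))) * a)) ∧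
    (∀ f : ℝ × ℝ → ℝ, Nice f → (∀ z, |f z| ≤ 1) → ∀ ε : ℝ, 0 < ε → ∃ ν₁ : ℕ,
      |(∫ ζ, f ζ * κ.FS u g E n ζ) - ∑ ν ∈ Finset.range ν₁, ∑ r ∈ Finset.range (R ν),
        ((∫ ζ, f ζ * H ν r ζ) + ∫ ζ, f ζ * κ.FS u g (Fr ν r) n ζ)| ≤ ε) ∧
    ∀ ν r : ℕ, ∀ f : ℝ × ℝ → ℝ, Nice f → (∀ z, |f z| ≤ 1) → ∀ b : ℝ, 0 < b →
      volume (Function.support f) ≤ ENNReal.ofReal b →
      |∫ ζ, f ζ * H ν r ζ| ≤ C₁ * (2 : ℝ) ^ (-(c * (ν + r))) * √(a * b) ∧
      |∫ ζ, f ζ * H ν r ζ| ≤ C₁ * (2 : ℝ) ^ (-(c * (ν + r))) * (2 ^ ν * a) ∧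
      (1 ≤ Real.logb 2 (a / b) → (ν + r : ℝ) ≤ B₁ * Real.logb 2 (1 + Real.logb 2 (a / b)) →
        |∫ ζ, f ζ * H ν r ζ| ≤ C₁ * (1 + Real.logb 2 (a / b))⁻¹ ^ 3 * √(a * b))

/-! ### numerical lemmas -/

lemma Psi_nonneg (a b : ℝ) : 0 ≤ Psi a b := by unfold Psi; positivity

/-- exponentials beat squares -/
lemma exp_beats {c : ℝ} (hc : 0 < c) : ∃ D : ℝ, 0 < D ∧ ∀ x : ℝ, 0 ≤ x →
    (2 : ℝ) ^ (-(c * x)) ≤ D * (1 + x)⁻¹ ^ 2 := by
  -- `2^(c x) ≥ 1 + c x log 2 + (c x log 2)^2 / 2`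
  set k := c * Real.log 2 with hk
  have hk0 : 0 < k := mul_pos hc (Real.log_pos (by norm_num))
  refine ⟨2 * (1 + 1 / k) ^ 2, by positivity, fun x hx => ?_⟩
  have h1 : (2 : ℝ) ^ (-(c * x)) = (Real.exp (k * x))⁻¹ := by
    rw [Real.rpow_def_of_pos (by norm_num), ← Real.exp_neg]
    congr 1
    rw [hk]; ring
  have h2 : 1 + k * x + (k * x) ^ 2 / 2 ≤ Real.exp (k * x) :=
    Real.quadratic_le_exp_of_nonneg (by positivity)
  have h3 : (1 + x) ^ 2 ≤ 2 * (1 + 1 / k) ^ 2 * Real.exp (k * x) := by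
    have e1 : 0 ≤ k * x := by positivity
    have e2 : (1 + x) ≤ (1 + 1 / k) * (1 + k * x) := by
      have : (1 + 1 / k) * (1 + k * x) = 1 + x + 1 / k + k * x := by field_simp; ring
      rw [this]
      have : 0 < 1 / k := by positivity
      linarith
    have e3 : (1 + x) ^ 2 ≤ ((1 + 1 / k) * (1 + k * x)) ^ 2 :=
      pow_le_pow_left₀ (by positivity) e2 2
    have e4 : (1 + k * x) ^ 2 ≤ 2 * Real.exp (k * x) := by nlinarith
    calc (1 + x) ^ 2 ≤ ((1 + 1 / k) * (1 + k * x)) ^ 2 := e3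
      _ = (1 + 1 / k) ^ 2 * (1 + k * x) ^ 2 := by ring
      _ ≤ (1 + 1 / k) ^ 2 * (2 * Real.exp (k * x)) := by gcongr
      _ = _ := by ring
  rw [h1, inv_pow]
  have h4 : 0 < Real.exp (k * x) := Real.exp_pos _
  have h5 : 0 < (1 + x) ^ 2 := by positivity
  rw [← div_eq_mul_inv, le_div_iff₀ h5, inv_mul_le_iff₀ h4]
  linarith

/-- shrinking the first set -/
lemma Psi_shrink : ∃ D : ℝ, 0 < D ∧ ∀ a b θ : ℝ, 0 < a → 0 < b → 0 < θ → θ ≤ 1 →
    Psi (θ * a) b ≤ D * θ ^ (1 / 4 : ℝ) * Psi a b := by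
  obtain ⟨D, hD, h⟩ := exp_beats (c := 1 / 4) (by norm_num)
  refine ⟨D, hD, fun a b θ ha hb hθ hθ1 => ?_⟩
  set t := -Real.logb 2 θ with ht
  have ht0 : 0 ≤ t := by
    rw [ht, neg_nonneg]
    exact Real.logb_nonpos (by norm_num) hθ.le hθ1
  have hθt : θ = (2 : ℝ) ^ (-t) := by
    rw [ht, neg_neg, Real.rpow_logb (by norm_num) (by norm_num) hθ]
  set Λ := Real.logb 2 (a / b) with hΛ
  have hlog : Real.logb 2 (θ * a / b) = Λ - t := by
    rw [mul_div_assoc, Real.logb_mul hθ.ne' (by positivity), ← hΛ, ht]; ring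
  unfold Psi
  rw [hlog, ← hΛ, mul_assoc θ a b, Real.sqrt_mul hθ.le]
  have h1 : √θ = θ ^ (1 / 4 : ℝ) * (2 : ℝ) ^ (-(1 / 4 * t)) := by
    rw [Real.sqrt_eq_rpow, hθt, ← Real.rpow_mul (by norm_num), ← Real.rpow_mul (by norm_num),
      ← Real.rpow_add (by norm_num)]
    congr 1; ring
  have h2 : (1 + |Λ|) ≤ (1 + |Λ - t|) * (1 + t) := by
    have e1 : |Λ| ≤ |Λ - t| + t := by
      calc |Λ| = |(Λ - t) + t| := by ring_nf
        _ ≤ |Λ - t| + |t| := abs_add_le _ _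
        _ = |Λ - t| + t := by rw [abs_of_nonneg ht0]
    nlinarith [abs_nonneg (Λ - t)]
  have h3 : (1 + |Λ - t|)⁻¹ ≤ (1 + t) * (1 + |Λ|)⁻¹ := by
    have p1 : 0 < 1 + |Λ - t| := by positivity
    have p2 : 0 < 1 + |Λ| := by positivity
    rw [← div_eq_mul_inv, inv_le_iff_one_le_mul₀ p1, div_mul_eq_mul_div, le_div_iff₀ p2]
    linarith
  have h4 : (2 : ℝ) ^ (-(1 / 4 * t)) * (1 + t) ^ 2 ≤ D := by
    have := h t ht0
    have p : 0 < (1 + t) ^ 2 := by positivity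
    rw [inv_pow, ← div_eq_mul_inv, le_div_iff₀ p] at this
    exact this
  have hθ4 : 0 ≤ θ ^ (1 / 4 : ℝ) := by positivity
  calc √θ * √(a * b) * (1 + |Λ - t|)⁻¹ ^ 2
      ≤ √θ * √(a * b) * ((1 + t) * (1 + |Λ|)⁻¹) ^ 2 := by gcongr
    _ = θ ^ (1 / 4 : ℝ) * ((2 : ℝ) ^ (-(1 / 4 * t)) * (1 + t) ^ 2) *
        (√(a * b) * (1 + |Λ|)⁻¹ ^ 2) := by rw [h1]; ring
    _ ≤ θ ^ (1 / 4 : ℝ) * D * (√(a * b) * (1 + |Λ|)⁻¹ ^ 2) := by gcongr
    _ = D * θ ^ (1 / 4 : ℝ) * (√(a * b) * (1 + |Λ|)⁻¹ ^ 2) := by ring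

/-- double geometric sums -/
lemma geom2 {ρ : ℝ} (h0 : 0 ≤ ρ) (h1 : ρ < 1) (N : ℕ) (R : ℕ → ℕ) :
    ∑ ν ∈ Finset.range N, ∑ r ∈ Finset.range (R ν), ρ ^ ν * ρ ^ r ≤ (1 - ρ)⁻¹ ^ 2 := by
  have hg : ∀ m : ℕ, ∑ r ∈ Finset.range m, ρ ^ r ≤ (1 - ρ)⁻¹ := by
    intro m
    rw [← tsum_geometric_of_lt_one h0 h1]
    exact (summable_geometric_of_lt_one h0 h1).sum_le_tsum _ fun i _ => pow_nonneg h0 i
  have hp : 0 ≤ (1 - ρ)⁻¹ := by
    have : 0 < 1 - ρ := by linarith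
    positivity
  calc ∑ ν ∈ Finset.range N, ∑ r ∈ Finset.range (R ν), ρ ^ ν * ρ ^ r
      = ∑ ν ∈ Finset.range N, ρ ^ ν * ∑ r ∈ Finset.range (R ν), ρ ^ r := by
        simp only [Finset.mul_sum]
    _ ≤ ∑ ν ∈ Finset.range N, ρ ^ ν * (1 - ρ)⁻¹ := by
        refine Finset.sum_le_sum fun ν _ => ?_
        exact mul_le_mul_of_nonneg_left (hg _) (pow_nonneg h0 _)
    _ = (∑ ν ∈ Finset.range N, ρ ^ ν) * (1 - ρ)⁻¹ := by rw [Finset.sum_mul]
    _ ≤ (1 - ρ)⁻¹ * (1 - ρ)⁻¹ := mul_le_mul_of_nonneg_right (hg _) hp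
    _ = (1 - ρ)⁻¹ ^ 2 := by ring

/-- the main part: one piece -/
lemma main_piece {c : ℝ} (hc : 0 < c) (hc1 : c ≤ 1) {B₁ : ℕ} (hB : 4 ≤ c * B₁) {C₁ : ℝ}
    (hC₁ : 0 ≤ C₁) : ∃ C₂ : ℝ, 0 ≤ C₂ ∧ ∀ a b X : ℝ, 0 < a → 0 < b → ∀ ν r : ℕ,
      X ≤ C₁ * (2 : ℝ) ^ (-(c * (ν + r))) * √(a * b) →
      X ≤ C₁ * (2 : ℝ) ^ (-(c * (ν + r))) * (2 ^ ν * a) →
      (1 ≤ Real.logb 2 (a / b) → (ν + r : ℝ) ≤ B₁ * Real.logb 2 (1 + Real.logb 2 (a / b)) →
        X ≤ C₁ * (1 + Real.logb 2 (a / b))⁻¹ ^ 3 * √(a * b)) →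
      X ≤ C₂ * (2 : ℝ) ^ (-((ν + r : ℝ) / B₁)) * Psi a b := by
  obtain ⟨D, hD, hexp⟩ := exp_beats (c := c / 4) (by positivity)
  have hB0 : (0 : ℝ) < B₁ := by
    by_contra h
    have : (B₁ : ℝ) = 0 := le_antisymm (not_lt.mp h) (Nat.cast_nonneg _)
    rw [this] at hB; linarith
  have hcB : 1 / (B₁ : ℝ) ≤ c / 4 := by
    rw [div_le_div_iff₀ hB0 (by norm_num)]; linarith
  refine ⟨C₁ * (D + 4), by positivity, fun a b X ha hb ν r h1 h2 h3 => ?_⟩
  set Λ := Real.logb 2 (a / b) with hΛ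
  set s : ℝ := (ν : ℝ) + r with hs
  have hs0 : 0 ≤ s := by positivity
  have hν0 : (0 : ℝ) ≤ ν := Nat.cast_nonneg _
  have hr0 : (0 : ℝ) ≤ r := Nat.cast_nonneg _
  have hab : 0 ≤ √(a * b) := Real.sqrt_nonneg _
  -- `2^(-(c/2) s) ≤ 2^(-s/B₁)`
  have hdec : (2 : ℝ) ^ (-(c / 2 * s)) ≤ (2 : ℝ) ^ (-(s / B₁)) := by
    apply Real.rpow_le_rpow_of_exponent_le (by norm_num)
    have : s / B₁ = 1 / B₁ * s := by ring
    rw [this]
    nlinarith
  have hpos : ∀ x : ℝ, 0 < (2 : ℝ) ^ x := fun x => Real.rpow_pos_of_pos (by norm_num) _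
  unfold Psi
  rw [← hΛ]
  rcases le_total Λ 0 with hneg | hnn
  · -- `a ≤ b`
    have habs : |Λ| = -Λ := abs_of_nonpos hneg
    have e1 : a = √(a * b) * (2 : ℝ) ^ (Λ / 2) := by
      have : (2 : ℝ) ^ (Λ / 2) = √(a / b) := by
        rw [Real.sqrt_eq_rpow, ← Real.rpow_logb (by norm_num : (0 : ℝ) < 2) (by norm_num)
          (by positivity : 0 < a / b), ← hΛ, ← Real.rpow_mul (by norm_num)]
        congr 1; ring
      rw [this, ← Real.sqrt_mul (by positivity)]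
      rw [show a * b * (a / b) = a ^ 2 by field_simp, Real.sqrt_sq ha.le]
    have e2 : (2 : ℝ) ^ ν * a = √(a * b) * (2 : ℝ) ^ ((ν : ℝ) + Λ / 2) := by
      rw [Real.rpow_add (by norm_num), Real.rpow_natCast]
      nth_rewrite 1 [e1]
      ring
    rw [e2] at h2
    -- `min (1, y) ≤ y^(c/2)`
    have h4 : X ≤ C₁ * (2 : ℝ) ^ (-(c * s)) * √(a * b) * (2 : ℝ) ^ (c / 2 * (ν + Λ / 2)) := by
      rcases le_total ((ν : ℝ) + Λ / 2) 0 with hy | hy
      · have h5 : (2 : ℝ) ^ ((ν : ℝ) + Λ / 2) ≤ (2 : ℝ) ^ (c / 2 * (ν + Λ / 2)) := by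
          apply Real.rpow_le_rpow_of_exponent_le (by norm_num)
          nlinarith
        calc X ≤ C₁ * (2 : ℝ) ^ (-(c * s)) * (√(a * b) * (2 : ℝ) ^ ((ν : ℝ) + Λ / 2)) := h2
          _ ≤ C₁ * (2 : ℝ) ^ (-(c * s)) * (√(a * b) * (2 : ℝ) ^ (c / 2 * (ν + Λ / 2))) := by
              have := hpos (-(c * s))
              gcongr
          _ = _ := by ring
      · have h5 : 1 ≤ (2 : ℝ) ^ (c / 2 * (ν + Λ / 2)) :=
          Real.one_le_rpow (by norm_num) (by positivity)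
        have h6 : 0 ≤ C₁ * (2 : ℝ) ^ (-(c * s)) * √(a * b) := by
          have := hpos (-(c * s)); positivity
        calc X ≤ C₁ * (2 : ℝ) ^ (-(c * s)) * √(a * b) * 1 := by rw [mul_one]; exact h1
          _ ≤ _ := mul_le_mul_of_nonneg_left h5 h6
    have h5 : (2 : ℝ) ^ (-(c * s)) * (2 : ℝ) ^ (c / 2 * (ν + Λ / 2)) ≤
        (2 : ℝ) ^ (-(s / B₁)) * (D * (1 + |Λ|)⁻¹ ^ 2) := by
      have h6 := hexp (-Λ) (by linarith)
      rw [← habs] at h6
      calc (2 : ℝ) ^ (-(c * s)) * (2 : ℝ) ^ (c / 2 * (ν + Λ / 2))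
          = (2 : ℝ) ^ (-(c * s) + c / 2 * ν) * (2 : ℝ) ^ (-(c / 4 * |Λ|)) := by
            rw [← Real.rpow_add (by norm_num), ← Real.rpow_add (by norm_num), habs]
            congr 1; ring
        _ ≤ (2 : ℝ) ^ (-(c / 2 * s)) * (2 : ℝ) ^ (-(c / 4 * |Λ|)) := by
            have h7 : (2 : ℝ) ^ (-(c * s) + c / 2 * ν) ≤ (2 : ℝ) ^ (-(c / 2 * s)) := by
              apply Real.rpow_le_rpow_of_exponent_le (by norm_num)
              rw [hs]; nlinarith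
            exact mul_le_mul_of_nonneg_right h7 (hpos _).le
        _ ≤ (2 : ℝ) ^ (-(s / B₁)) * (D * (1 + |Λ|)⁻¹ ^ 2) :=
            mul_le_mul hdec h6 (hpos _).le (hpos _).le
    calc X ≤ C₁ * √(a * b) * ((2 : ℝ) ^ (-(c * s)) * (2 : ℝ) ^ (c / 2 * (ν + Λ / 2))) :=
          h4.trans (le_of_eq (by ring))
      _ ≤ C₁ * √(a * b) * ((2 : ℝ) ^ (-(s / B₁)) * (D * (1 + |Λ|)⁻¹ ^ 2)) := by gcongr
      _ ≤ C₁ * √(a * b) * ((2 : ℝ) ^ (-(s / B₁)) * ((D + 4) * (1 + |Λ|)⁻¹ ^ 2)) := by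
          have := hpos (-(s / B₁))
          gcongr
          linarith
      _ = C₁ * (D + 4) * (2 : ℝ) ^ (-(s / B₁)) * (√(a * b) * (1 + |Λ|)⁻¹ ^ 2) := by ring
  · have habs : |Λ| = Λ := abs_of_nonneg hnn
    rw [habs]
    have hq : 0 ≤ (1 + Λ)⁻¹ := by positivity
    rcases lt_or_ge Λ 1 with hl | hl
    · -- `0 ≤ Λ < 1`
      have h4 : (1 : ℝ) ≤ 4 * (1 + Λ)⁻¹ ^ 2 := by
        rw [inv_pow, ← div_eq_mul_inv, le_div_iff₀ (by positivity)]
        nlinarith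
      have h5 : (2 : ℝ) ^ (-(c * s)) ≤ (2 : ℝ) ^ (-(s / B₁)) := by
        refine le_trans ?_ hdec
        apply Real.rpow_le_rpow_of_exponent_le (by norm_num)
        nlinarith
      calc X ≤ C₁ * (2 : ℝ) ^ (-(c * s)) * √(a * b) := h1
        _ ≤ C₁ * (2 : ℝ) ^ (-(s / B₁)) * √(a * b) := by gcongr
        _ ≤ C₁ * (2 : ℝ) ^ (-(s / B₁)) * √(a * b) * (4 * (1 + Λ)⁻¹ ^ 2) := by
            refine le_mul_of_one_le_right ?_ h4
            have := hpos (-(s / B₁)); positivity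
        _ ≤ C₁ * (2 : ℝ) ^ (-(s / B₁)) * √(a * b) * ((D + 4) * (1 + Λ)⁻¹ ^ 2) := by
            have := hpos (-(s / B₁))
            gcongr
            linarith
        _ = _ := by ring
    · set L := Real.logb 2 (1 + Λ) with hL
      have hL2 : (2 : ℝ) ^ L = 1 + Λ := by
        rw [hL, Real.rpow_logb (by norm_num) (by norm_num) (by positivity)]
      rcases le_or_gt s (B₁ * L) with hsmall | hbig
      · have h4 := h3 hl hsmall
        have h5 : (1 + Λ)⁻¹ ≤ (2 : ℝ) ^ (-(s / B₁)) := by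
          rw [← hL2, ← Real.rpow_neg (by norm_num)]
          apply Real.rpow_le_rpow_of_exponent_le (by norm_num)
          rw [neg_le_neg_iff, div_le_iff₀ hB0]
          linarith
        calc X ≤ C₁ * (1 + Λ)⁻¹ ^ 3 * √(a * b) := h4
          _ = C₁ * ((1 + Λ)⁻¹ * (1 + Λ)⁻¹ ^ 2) * √(a * b) := by ring
          _ ≤ C₁ * ((2 : ℝ) ^ (-(s / B₁)) * (1 + Λ)⁻¹ ^ 2) * √(a * b) := by gcongr
          _ = C₁ * 1 * (2 : ℝ) ^ (-(s / B₁)) * (√(a * b) * (1 + Λ)⁻¹ ^ 2) := by ring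
          _ ≤ C₁ * (D + 4) * (2 : ℝ) ^ (-(s / B₁)) * (√(a * b) * (1 + Λ)⁻¹ ^ 2) := by
              have := hpos (-(s / B₁))
              gcongr
              linarith
      · have h5 : (2 : ℝ) ^ (-(c * s)) ≤ (2 : ℝ) ^ (-(s / B₁)) * (1 + Λ)⁻¹ ^ 2 := by
          have e1 : (1 + Λ)⁻¹ ^ 2 = (2 : ℝ) ^ (-(2 * L)) := by
            rw [← hL2, ← Real.rpow_neg (by norm_num), ← Real.rpow_natCast,
              ← Real.rpow_mul (by norm_num)]
            congr 1; push_cast; ring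
          have hL0 : 0 ≤ L := Real.logb_nonneg (by norm_num) (by linarith)
          calc (2 : ℝ) ^ (-(c * s)) = (2 : ℝ) ^ (-(c / 2 * s)) * (2 : ℝ) ^ (-(c / 2 * s)) := by
                rw [← Real.rpow_add (by norm_num)]; congr 1; ring
            _ ≤ (2 : ℝ) ^ (-(s / B₁)) * (2 : ℝ) ^ (-(2 * L)) := by
                refine mul_le_mul hdec ?_ (hpos _).le (hpos _).le
                apply Real.rpow_le_rpow_of_exponent_le (by norm_num)
                have h6 : c / 2 * (B₁ * L) ≤ c / 2 * s := by gcongr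
                nlinarith
            _ = _ := by rw [e1]
        calc X ≤ C₁ * (2 : ℝ) ^ (-(c * s)) * √(a * b) := h1
          _ ≤ C₁ * ((2 : ℝ) ^ (-(s / B₁)) * (1 + Λ)⁻¹ ^ 2) * √(a * b) := by gcongr
          _ = C₁ * 1 * (2 : ℝ) ^ (-(s / B₁)) * (√(a * b) * (1 + Λ)⁻¹ ^ 2) := by ring
          _ ≤ C₁ * (D + 4) * (2 : ℝ) ^ (-(s / B₁)) * (√(a * b) * (1 + Λ)⁻¹ ^ 2) := by
              have := hpos (-(s / B₁))
              gcongr
              linarith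

/-! ### the crude bound -/

lemma integral_abs_le {f : ℝ × ℝ → ℝ} (hf : Nice f) (h1 : ∀ z, |f z| ≤ 1) {b : ℝ} (hb : 0 ≤ b)
    (h : volume (Function.support f) ≤ ENNReal.ofReal b) : ∫ z, |f z| ≤ b := by
  have hS : MeasurableSet (Function.support f) := measurableSet_support hf.meas
  have hfin : volume (Function.support f) ≠ ⊤ := ne_top_of_le_ne_top ENNReal.ofReal_ne_top h
  have e1 : ∫ z, |f z| = ∫ z in Function.support f, |f z| := by
    symm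
    apply setIntegral_eq_integral_of_forall_compl_eq_zero
    intro z hz
    rw [Function.notMem_support.1 hz, abs_zero]
  rw [e1]
  have h2 : ‖∫ z in Function.support f, |f z|‖ ≤ 1 * volume.real (Function.support f) := by
    apply norm_setIntegral_le_of_norm_le_const hfin.lt_top
    intro z _
    rw [Real.norm_eq_abs, abs_abs]; exact h1 z
  rw [one_mul] at h2
  have h3 : volume.real (Function.support f) ≤ b := by
    rw [Measure.real]
    exact ENNReal.toReal_le_of_le_ofReal hb h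
  exact (le_abs_self _).trans (h2.trans h3)

/-- the box around a point -/
def bx (U : ℝ) (z : ℝ × ℝ) : Set (ℝ × ℝ) := Icc (z.1 - 1) (z.1 + 1) ×ˢ Icc (z.2 - U) (z.2 + U)

lemma volume_bx {U : ℝ} (hU : 0 ≤ U) (z : ℝ × ℝ) : volume.real (bx U z) = 4 * U := by
  rw [bx, Measure.real, Measure.volume_eq_prod, Measure.prod_prod, Real.volume_Icc, Real.volume_Icc,
    ← ENNReal.ofReal_mul (by linarith), ENNReal.toReal_ofReal (by nlinarith)]
  ring

lemma volume_bx_lt (U : ℝ) (z : ℝ × ℝ) : volume (bx U z) < ⊤ := by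
  rw [bx, Measure.volume_eq_prod, Measure.prod_prod, Real.volume_Icc, Real.volume_Icc]
  exact ENNReal.mul_lt_top ENNReal.ofReal_lt_top ENNReal.ofReal_lt_top

lemma k_box (κ : Ker M) {U : ℝ} {j : ℕ} {v : ℝ} (hv : |v| ≤ U) {z ζ : ℝ × ℝ}
    (h : κ.k j v z ζ ≠ 0) : |z.1 - ζ.1| ≤ 1 ∧ |z.2 - ζ.2| ≤ 1 + U := by
  obtain ⟨h1, h2⟩ := κ.k_supp h
  have h3 : |z.1 - ζ.1| ≤ 1 := by
    refine h1.trans ?_
    rw [div_le_one (by positivity)]
    have : (1 : ℝ) ≤ 2 ^ j := one_le_pow₀ (by norm_num)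
    linarith
  refine ⟨h3, ?_⟩
  have h4 : |(z.1 - ζ.1) * v| ≤ U := by
    rw [abs_mul]
    have := abs_nonneg v
    nlinarith [abs_nonneg (z.1 - ζ.1)]
  calc |z.2 - ζ.2| = |(z.2 - ζ.2 - (z.1 - ζ.1) * v) + (z.1 - ζ.1) * v| := by ring_nf
    _ ≤ |z.2 - ζ.2 - (z.1 - ζ.1) * v| + |(z.1 - ζ.1) * v| := abs_add_le _ _
    _ ≤ 1 + U := add_le_add h2 h4

/-- The crude bound: finite, but depending on everything. -/
lemma crude_bound (κ : Ker M) {u : ℝ × ℝ → ℝ} (hu : Field u) (n : ℕ) : ∃ B : ℝ, 0 ≤ B ∧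
    ∀ E : ℕ → Set (ℝ × ℝ), (∀ j, MeasurableSet (E j)) →
    ∀ g : ℝ × ℝ → ℝ, Nice g → (∀ z, |g z| ≤ 1) →
    ∀ f : ℝ × ℝ → ℝ, Nice f → (∀ z, |f z| ≤ 1) →
    ∀ a b : ℝ, 0 < a → 0 < b → volume (Un E n) ≤ ENNReal.ofReal a →
      volume (Function.support f) ≤ ENNReal.ofReal b →
      |∫ ζ, f ζ * κ.FS u g E n ζ| ≤ B * min a b := by
  obtain ⟨U, hU⟩ := hu.bdd
  have hU0 : 0 ≤ U := (abs_nonneg _).trans (hU 0)
  obtain ⟨D, hD, hk⟩ := κ.k_bdd
  set V : ℝ := D * 2 ^ n * (4 * (1 + U)) with hV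
  refine ⟨n * V, by positivity, ?_⟩
  intro E hE g hg hg1 f hf hf1 a b ha hb hEa hfb
  have hkn : ∀ j < n, ∀ v z ζ, |κ.k j v z ζ| ≤ D * 2 ^ n := by
    intro j hj v z ζ
    refine (hk j v z ζ).trans ?_
    gcongr
    · norm_num
  -- one scale
  have key : ∀ j < n, |∫ ζ, f ζ * κ.S u j ((E j).indicator g) ζ| ≤ V * min a b := by
    intro j hj
    have hg' : Nice ((E j).indicator g) := hg.indicator (hE j)
    have hg'1 : ∀ z, |(E j).indicator g z| ≤ 1 := by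
      intro z
      by_cases hz : z ∈ E j
      · rw [indicator_of_mem hz]; exact hg1 z
      · rw [indicator_of_notMem hz, abs_zero]; norm_num
    have hsup : volume (Function.support ((E j).indicator g)) ≤ ENNReal.ofReal a := by
      refine (measure_mono ?_).trans hEa
      intro z hz
      by_contra hcon
      apply hz
      rw [indicator_of_notMem]
      intro hzE
      exact hcon ⟨j, hj, hzE⟩
    have ha' := integral_abs_le hg' hg'1 ha.le hsup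
    have hb' := integral_abs_le hf hf1 hb.le hfb
    have hV0 : 0 ≤ V := by positivity
    -- bound by `b`
    have h1 : |∫ ζ, f ζ * κ.S u j ((E j).indicator g) ζ| ≤ V * b := by
      have hS : ∀ ζ, |κ.S u j ((E j).indicator g) ζ| ≤ V := by
        intro ζ
        have e1 : κ.S u j ((E j).indicator g) ζ =
            ∫ z in bx (1 + U) ζ, κ.k j (u z) z ζ * (E j).indicator g z := by
          symm
          apply setIntegral_eq_integral_of_forall_compl_eq_zero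
          intro z hz
          by_cases hk0 : κ.k j (u z) z ζ = 0
          · rw [hk0, zero_mul]
          · exfalso
            apply hz
            obtain ⟨h1, h2⟩ := k_box κ (hU z) hk0
            rw [abs_le] at h1 h2
            refine ⟨⟨?_, ?_⟩, ⟨?_, ?_⟩⟩ <;> linarith [h1.1, h1.2, h2.1, h2.2]
        rw [e1]
        have h2 : ‖∫ z in bx (1 + U) ζ, κ.k j (u z) z ζ * (E j).indicator g z‖ ≤
            (D * 2 ^ n) * volume.real (bx (1 + U) ζ) := by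
          apply norm_setIntegral_le_of_norm_le_const (volume_bx_lt _ _)
          intro z _
          rw [norm_mul, Real.norm_eq_abs, Real.norm_eq_abs]
          calc |κ.k j (u z) z ζ| * |(E j).indicator g z| ≤ (D * 2 ^ n) * 1 :=
                mul_le_mul (hkn j hj _ _ _) (hg'1 z) (abs_nonneg _) (by positivity)
            _ = _ := mul_one _
        rw [volume_bx (by positivity)] at h2
        exact h2
      calc |∫ ζ, f ζ * κ.S u j ((E j).indicator g) ζ|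
          ≤ ∫ ζ, |f ζ * κ.S u j ((E j).indicator g) ζ| := abs_integral_le_integral_abs
        _ ≤ ∫ ζ, |f ζ| * V := by
            refine integral_mono (hf.mul (κ.S_nice hu j hg')).abs.integrable
              (hf.abs.integrable.mul_const V) fun ζ => ?_
            simp only
            rw [abs_mul]
            gcongr
            exact hS ζ
        _ = (∫ ζ, |f ζ|) * V := integral_mul_const _ _
        _ ≤ b * V := by gcongr
        _ = V * b := mul_comm _ _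
    -- bound by `a`
    have h2 : |∫ ζ, f ζ * κ.S u j ((E j).indicator g) ζ| ≤ V * a := by
      have e0 : ∫ ζ, f ζ * κ.S u j ((E j).indicator g) ζ =
          ∫ z, (E j).indicator g z * ∫ ζ, κ.k j (u z) z ζ * f ζ := by
        rw [← κ.integral_S_mul hu j hg' hf]
        exact integral_congr_ae (Eventually.of_forall fun ζ => mul_comm _ _)
      have hT : ∀ z, |∫ ζ, κ.k j (u z) z ζ * f ζ| ≤ V := by
        intro z
        have e1 : ∫ ζ, κ.k j (u z) z ζ * f ζ = ∫ ζ in bx (1 + U) z, κ.k j (u z) z ζ * f ζ := by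
          symm
          apply setIntegral_eq_integral_of_forall_compl_eq_zero
          intro ζ hζ
          by_cases hk0 : κ.k j (u z) z ζ = 0
          · rw [hk0, zero_mul]
          · exfalso
            apply hζ
            obtain ⟨h1, h2⟩ := k_box κ (hU z) hk0
            rw [abs_le] at h1 h2
            refine ⟨⟨?_, ?_⟩, ⟨?_, ?_⟩⟩ <;> linarith [h1.1, h1.2, h2.1, h2.2]
        rw [e1]
        have h2 : ‖∫ ζ in bx (1 + U) z, κ.k j (u z) z ζ * f ζ‖ ≤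
            (D * 2 ^ n) * volume.real (bx (1 + U) z) := by
          apply norm_setIntegral_le_of_norm_le_const (volume_bx_lt _ _)
          intro ζ _
          rw [norm_mul, Real.norm_eq_abs, Real.norm_eq_abs]
          calc |κ.k j (u z) z ζ| * |f ζ| ≤ (D * 2 ^ n) * 1 :=
                mul_le_mul (hkn j hj _ _ _) (hf1 ζ) (abs_nonneg _) (by positivity)
            _ = _ := mul_one _
        rw [volume_bx (by positivity)] at h2
        exact h2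
      rw [e0]
      calc |∫ z, (E j).indicator g z * ∫ ζ, κ.k j (u z) z ζ * f ζ|
          ≤ ∫ z, |(E j).indicator g z| * V := by
            rw [← Real.norm_eq_abs]
            refine norm_integral_le_of_norm_le (hg'.abs.integrable.mul_const V) ?_
            refine Eventually.of_forall fun z => ?_
            rw [norm_mul, Real.norm_eq_abs, Real.norm_eq_abs]
            gcongr
            exact hT z
        _ = (∫ z, |(E j).indicator g z|) * V := integral_mul_const _ _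
        _ ≤ a * V := by gcongr
        _ = V * a := mul_comm _ _
    rcases le_total a b with hab | hab
    · rw [min_eq_left hab]; exact h2
    · rw [min_eq_right hab]; exact h1
  have hsum : ∫ ζ, f ζ * κ.FS u g E n ζ =
      ∑ j ∈ Finset.range n, ∫ ζ, f ζ * κ.S u j ((E j).indicator g) ζ := by
    rw [← integral_finsetSum]
    · refine integral_congr_ae (Eventually.of_forall fun ζ => ?_)
      simp only [Ker.FS, Finset.mul_sum]
    · intro j _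
      exact (hf.mul (κ.S_nice hu j (hg.indicator (hE j)))).integrable
  rw [hsum]
  refine (Finset.abs_sum_le_sum_abs _ _).trans ?_
  calc ∑ j ∈ Finset.range n, |∫ ζ, f ζ * κ.S u j ((E j).indicator g) ζ|
      ≤ ∑ _j ∈ Finset.range n, V * min a b :=
        Finset.sum_le_sum fun j hj => key j (Finset.mem_range.1 hj)
    _ = n * V * min a b := by rw [Finset.sum_const, Finset.card_range, nsmul_eq_mul]; ring

/-- the smaller measure is bounded by `Psi` -/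
lemma min_le_Psi : ∃ D : ℝ, 0 < D ∧ ∀ a b : ℝ, 0 < a → 0 < b → min a b ≤ D * Psi a b := by
  obtain ⟨D, hD, h⟩ := exp_beats (c := 1 / 2) (by norm_num)
  refine ⟨D, hD, fun a b ha hb => ?_⟩
  set Λ := Real.logb 2 (a / b) with hΛ
  have e0 : a / b = (2 : ℝ) ^ Λ := by
    rw [hΛ, Real.rpow_logb (by norm_num) (by norm_num) (by positivity)]
  have e1 : min a b = √(a * b) * (2 : ℝ) ^ (-(1 / 2 * |Λ|)) := by
    rcases le_total a b with hab | hab
    · have hneg : Λ ≤ 0 := by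
        rw [hΛ]
        exact Real.logb_nonpos (by norm_num) (by positivity) ((div_le_one hb).2 hab)
      rw [min_eq_left hab, abs_of_nonpos hneg]
      have : (2 : ℝ) ^ (-(1 / 2 * -Λ)) = √(a / b) := by
        rw [Real.sqrt_eq_rpow, e0, ← Real.rpow_mul (by norm_num)]
        congr 1; ring
      rw [this, ← Real.sqrt_mul (by positivity), show a * b * (a / b) = a ^ 2 by field_simp,
        Real.sqrt_sq ha.le]
    · have hpos : 0 ≤ Λ := by
        rw [hΛ]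
        exact Real.logb_nonneg (by norm_num) ((one_le_div hb).2 hab)
      rw [min_eq_right hab, abs_of_nonneg hpos]
      have : (2 : ℝ) ^ (-(1 / 2 * Λ)) = √(b / a) := by
        rw [Real.sqrt_eq_rpow, show b / a = (a / b)⁻¹ by rw [inv_div], e0,
          ← Real.rpow_neg (by norm_num), ← Real.rpow_mul (by norm_num)]
        congr 1; ring
      rw [this, ← Real.sqrt_mul (by positivity), show a * b * (b / a) = b ^ 2 by field_simp,
        Real.sqrt_sq hb.le]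
  rw [e1]
  unfold Psi
  rw [← hΛ]
  calc √(a * b) * (2 : ℝ) ^ (-(1 / 2 * |Λ|)) ≤ √(a * b) * (D * (1 + |Λ|)⁻¹ ^ 2) := by
        gcongr
        exact h _ (abs_nonneg _)
    _ = _ := by ring

/-! ### the bootstrap -/

/-- **[BOOT].** One decomposition step gives the restricted bound. -/
theorem restr_of_dec {κ : Ker M} {e : ℝ} (hdec : Dec κ e) : Restr κ e := by
  obtain ⟨c, C, hc, hc1, hC, hdec⟩ := hdec
  obtain ⟨D₁, hD₁, hshrink⟩ := Psi_shrink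
  obtain ⟨D₂, hD₂, hmin⟩ := min_le_Psi
  obtain ⟨B₁, hB₁⟩ := exists_nat_ge (4 / c)
  have hB4 : 4 ≤ c * B₁ := by
    rw [div_le_iff₀ hc] at hB₁; linarith
  have hB0 : (0 : ℝ) < B₁ := by
    by_contra h
    have : (B₁ : ℝ) = 0 := le_antisymm (not_lt.mp h) (Nat.cast_nonneg _)
    rw [this] at hB4; linarith
  -- the geometric ratios
  set ρ₁ : ℝ := (2 : ℝ) ^ (-(1 / (B₁ : ℝ))) with hρ₁
  set ρ₂ : ℝ := (2 : ℝ) ^ (-(c / 4)) with hρ₂
  have hρ₁0 : 0 ≤ ρ₁ := by positivity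
  have hρ₂0 : 0 < ρ₂ := by positivity
  have hρ₁1 : ρ₁ < 1 := Real.rpow_lt_one_of_one_lt_of_neg (by norm_num) (by
    rw [neg_lt_zero]; positivity)
  have hρ₂1 : ρ₂ < 1 := Real.rpow_lt_one_of_one_lt_of_neg (by norm_num) (by
    rw [neg_lt_zero]; positivity)
  have hg2 : 0 < (1 - ρ₂)⁻¹ ^ 2 := by
    have : 0 < 1 - ρ₂ := by linarith
    positivity
  -- the choice of `n₀`
  obtain ⟨n₀, hn₀⟩ := exists_pow_lt_of_lt_one
    (show (0 : ℝ) < min (1 / (C + 1)) (1 / (2 * (D₁ * (C + 1) * (1 - ρ₂)⁻¹ ^ 2))) by positivity) hρ₂1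
  have hn1 : ρ₂ ^ n₀ ≤ 1 / (C + 1) := hn₀.le.trans (min_le_left _ _)
  have hn2 : ρ₂ ^ n₀ ≤ 1 / (2 * (D₁ * (C + 1) * (1 - ρ₂)⁻¹ ^ 2)) := hn₀.le.trans (min_le_right _ _)
  obtain ⟨C₁, hC₁, hdec⟩ := hdec B₁ n₀
  obtain ⟨C₂, hC₂, hpiece⟩ := main_piece hc hc1 hB4 hC₁
  set C₀ : ℝ := C₂ * (1 - ρ₁)⁻¹ ^ 2 with hC₀
  have hC₀0 : 0 ≤ C₀ := by positivity
  refine ⟨2 * C₀, by positivity, ?_⟩
  intro u hu n
  -- the claim with constant `B`
  let P : ℝ → Prop := fun B => ∀ E : ℕ → Set (ℝ × ℝ), Fam n E →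
    ∀ g : ℝ × ℝ → ℝ, Nice g → (∀ z, |g z| ≤ 1) →
    ∀ f : ℝ × ℝ → ℝ, Nice f → (∀ z, |f z| ≤ 1) →
    ∀ a b : ℝ, 0 < a → 0 < b → volume (Un E n) ≤ ENNReal.ofReal a →
      volume (Function.support f) ≤ ENNReal.ofReal b →
      |∫ ζ, f ζ * κ.FS u g E n ζ| ≤ B * Psi a b
  -- initial bound
  have hinit : ∃ B : ℝ, 0 ≤ B ∧ P B := by
    obtain ⟨B, hB, h⟩ := crude_bound κ hu.field n
    refine ⟨B * D₂, by positivity, ?_⟩
    intro E hE g hg hg1 f hf hf1 a b ha hb hEa hfb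
    refine (h E hE.meas g hg hg1 f hf hf1 a b ha hb hEa hfb).trans ?_
    rw [mul_assoc]
    exact mul_le_mul_of_nonneg_left (hmin a b ha hb) hB
  -- the step
  have hstep : ∀ B : ℝ, 0 ≤ B → P B → P (C₀ + B / 2) := by
    intro B hB hP E hE g hg hg1 f hf hf1 a b ha hb hEa hfb
    obtain ⟨H, Fr, R, hFr, hlim, hH⟩ := hdec u hu n E hE g hg hg1 a ha hEa
    have hPsi := Psi_nonneg a b
    -- main parts
    have hmain : ∀ ν r : ℕ, |∫ ζ, f ζ * H ν r ζ| ≤ C₂ * Psi a b * (ρ₁ ^ ν * ρ₁ ^ r) := by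
      intro ν r
      obtain ⟨h1, h2, h3⟩ := hH ν r f hf hf1 b hb hfb
      refine (hpiece a b _ ha hb ν r h1 h2 h3).trans (le_of_eq ?_)
      have : (2 : ℝ) ^ (-((ν + r : ℝ) / B₁)) = ρ₁ ^ ν * ρ₁ ^ r := by
        rw [← pow_add, hρ₁, ← Real.rpow_natCast, ← Real.rpow_mul (by norm_num)]
        congr 1; push_cast; ring
      rw [this]; ring
    -- fringes
    have hfr : ∀ ν r : ℕ, |∫ ζ, f ζ * κ.FS u g (Fr ν r) n ζ| ≤
        B * (D₁ * (C + 1) * ρ₂ ^ n₀) * Psi a b * (ρ₂ ^ ν * ρ₂ ^ r) := by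
      intro ν r
      obtain ⟨hF, hFv⟩ := hFr ν r
      set θ : ℝ := C * (2 : ℝ) ^ (-(c * (ν + r + n₀))) with hθ
      have hθ0 : 0 < θ := by positivity
      have hρ4 : (2 : ℝ) ^ (-(c * (ν + r + n₀))) = (ρ₂ ^ (ν + r + n₀)) ^ 4 := by
        rw [← pow_mul, hρ₂, ← Real.rpow_natCast, ← Real.rpow_mul (by norm_num)]
        congr 1; push_cast; ring
      have hpw : ρ₂ ^ (ν + r + n₀) ≤ ρ₂ ^ n₀ :=
        pow_le_pow_of_le_one hρ₂0.le hρ₂1.le (by omega)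
      have hpw0 : 0 < ρ₂ ^ (ν + r + n₀) := pow_pos hρ₂0 _
      have hpw1 : ρ₂ ^ (ν + r + n₀) ≤ 1 := pow_le_one₀ hρ₂0.le hρ₂1.le
      have hθ1 : θ ≤ 1 := by
        rw [hθ, hρ4]
        have h5 : (ρ₂ ^ (ν + r + n₀)) ^ 4 ≤ ρ₂ ^ (ν + r + n₀) := by
          calc (ρ₂ ^ (ν + r + n₀)) ^ 4 ≤ (ρ₂ ^ (ν + r + n₀)) ^ 1 :=
                pow_le_pow_of_le_one hpw0.le hpw1 (by norm_num)
            _ = _ := pow_one _
        have h6 : (ρ₂ ^ (ν + r + n₀)) ^ 4 ≤ 1 / (C + 1) := h5.trans (hpw.trans hn1)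
        calc C * (ρ₂ ^ (ν + r + n₀)) ^ 4 ≤ C * (1 / (C + 1)) := by gcongr
          _ ≤ 1 := by
            rw [mul_one_div, div_le_one (by positivity)]; linarith
      have h7 := hP (Fr ν r) hF g hg hg1 f hf hf1 (θ * a) b (by positivity) hb hFv hfb
      refine h7.trans ?_
      have h8 := hshrink a b θ ha hb hθ0 hθ1
      have h9 : θ ^ (1 / 4 : ℝ) ≤ (C + 1) * ρ₂ ^ (ν + r + n₀) := by
        have e1 : θ ≤ ((C + 1) * ρ₂ ^ (ν + r + n₀)) ^ 4 := by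
          rw [hθ, hρ4, mul_pow]
          have : C ≤ (C + 1) ^ 4 := by nlinarith [sq_nonneg C, pow_pos hC 3, pow_pos hC 4]
          gcongr
        calc θ ^ (1 / 4 : ℝ) ≤ (((C + 1) * ρ₂ ^ (ν + r + n₀)) ^ 4) ^ (1 / 4 : ℝ) :=
              Real.rpow_le_rpow hθ0.le e1 (by norm_num)
          _ = (C + 1) * ρ₂ ^ (ν + r + n₀) := by
              rw [← Real.rpow_natCast, ← Real.rpow_mul (by positivity)]
              norm_num
      calc B * Psi (θ * a) b ≤ B * (D₁ * θ ^ (1 / 4 : ℝ) * Psi a b) := by gcongr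
        _ ≤ B * (D₁ * ((C + 1) * ρ₂ ^ (ν + r + n₀)) * Psi a b) := by gcongr
        _ = B * (D₁ * (C + 1) * ρ₂ ^ n₀) * Psi a b * (ρ₂ ^ ν * ρ₂ ^ r) := by
            rw [pow_add, pow_add]; ring
    have hsmall : D₁ * (C + 1) * ρ₂ ^ n₀ * (1 - ρ₂)⁻¹ ^ 2 ≤ 1 / 2 := by
      have h5 : D₁ * (C + 1) * (1 - ρ₂)⁻¹ ^ 2 * ρ₂ ^ n₀ ≤
          D₁ * (C + 1) * (1 - ρ₂)⁻¹ ^ 2 * (1 / (2 * (D₁ * (C + 1) * (1 - ρ₂)⁻¹ ^ 2))) := by
        gcongr
      have h6 : D₁ * (C + 1) * (1 - ρ₂)⁻¹ ^ 2 * (1 / (2 * (D₁ * (C + 1) * (1 - ρ₂)⁻¹ ^ 2))) =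
          1 / 2 := by
        have : D₁ * (C + 1) * (1 - ρ₂)⁻¹ ^ 2 ≠ 0 := by positivity
        generalize D₁ * (C + 1) * (1 - ρ₂)⁻¹ ^ 2 = X at this
        field_simp
      rw [h6] at h5
      linarith
    refine le_of_forall_pos_le_add fun ε hε => ?_
    obtain ⟨ν₁, hν₁⟩ := hlim f hf hf1 ε hε
    have hsum : |∑ ν ∈ Finset.range ν₁, ∑ r ∈ Finset.range (R ν),
        ((∫ ζ, f ζ * H ν r ζ) + ∫ ζ, f ζ * κ.FS u g (Fr ν r) n ζ)| ≤
        (C₀ + B / 2) * Psi a b := by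
      calc |∑ ν ∈ Finset.range ν₁, ∑ r ∈ Finset.range (R ν),
            ((∫ ζ, f ζ * H ν r ζ) + ∫ ζ, f ζ * κ.FS u g (Fr ν r) n ζ)|
          ≤ ∑ ν ∈ Finset.range ν₁, ∑ r ∈ Finset.range (R ν),
            |(∫ ζ, f ζ * H ν r ζ) + ∫ ζ, f ζ * κ.FS u g (Fr ν r) n ζ| := by
            refine (Finset.abs_sum_le_sum_abs _ _).trans (Finset.sum_le_sum fun ν _ => ?_)
            exact Finset.abs_sum_le_sum_abs _ _
        _ ≤ ∑ ν ∈ Finset.range ν₁, ∑ r ∈ Finset.range (R ν),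
            (C₂ * Psi a b * (ρ₁ ^ ν * ρ₁ ^ r) +
              B * (D₁ * (C + 1) * ρ₂ ^ n₀) * Psi a b * (ρ₂ ^ ν * ρ₂ ^ r)) := by
            refine Finset.sum_le_sum fun ν _ => Finset.sum_le_sum fun r _ => ?_
            exact (abs_add_le _ _).trans (add_le_add (hmain ν r) (hfr ν r))
        _ = C₂ * Psi a b * (∑ ν ∈ Finset.range ν₁, ∑ r ∈ Finset.range (R ν), ρ₁ ^ ν * ρ₁ ^ r) +
            B * (D₁ * (C + 1) * ρ₂ ^ n₀) * Psi a b *
              (∑ ν ∈ Finset.range ν₁, ∑ r ∈ Finset.range (R ν), ρ₂ ^ ν * ρ₂ ^ r) := by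
            simp only [Finset.sum_add_distrib, Finset.mul_sum]
        _ ≤ C₂ * Psi a b * (1 - ρ₁)⁻¹ ^ 2 +
            B * (D₁ * (C + 1) * ρ₂ ^ n₀) * Psi a b * (1 - ρ₂)⁻¹ ^ 2 := by
            have g1 := geom2 hρ₁0 hρ₁1 ν₁ R
            have g2 := geom2 hρ₂0.le hρ₂1 ν₁ R
            have p1 : 0 ≤ C₂ * Psi a b := by positivity
            have p2 : 0 ≤ B * (D₁ * (C + 1) * ρ₂ ^ n₀) * Psi a b := by positivity
            exact add_le_add (mul_le_mul_of_nonneg_left g1 p1) (mul_le_mul_of_nonneg_left g2 p2)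
        _ = C₀ * Psi a b + B * (D₁ * (C + 1) * ρ₂ ^ n₀ * (1 - ρ₂)⁻¹ ^ 2) * Psi a b := by
            rw [hC₀]; ring
        _ ≤ C₀ * Psi a b + B * (1 / 2) * Psi a b := by gcongr
        _ = (C₀ + B / 2) * Psi a b := by ring
    have h5 := abs_sub_abs_le_abs_sub (∫ ζ, f ζ * κ.FS u g E n ζ)
      (∑ ν ∈ Finset.range ν₁, ∑ r ∈ Finset.range (R ν),
        ((∫ ζ, f ζ * H ν r ζ) + ∫ ζ, f ζ * κ.FS u g (Fr ν r) n ζ))
    linarith
  obtain ⟨B, hB, hPB⟩ := hinit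
  have hiter : ∀ k : ℕ, P (2 * C₀ + B / 2 ^ k) := by
    intro k
    induction k with
    | zero =>
      intro E hE g hg hg1 f hf hf1 a b ha hb hEa hfb
      refine (hPB E hE g hg hg1 f hf hf1 a b ha hb hEa hfb).trans ?_
      have := Psi_nonneg a b
      rw [pow_zero, div_one]
      nlinarith
    | succ k ih =>
      have h := hstep _ (by positivity) ih
      have e1 : C₀ + (2 * C₀ + B / 2 ^ k) / 2 = 2 * C₀ + B / 2 ^ (k + 1) := by
        rw [pow_succ]; field_simp; ring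
      rwa [e1] at h
  intro E hE g hg hg1 f hf hf1 a b ha hb hEa hfb
  have hlim : Tendsto (fun k : ℕ => (2 * C₀ + B / 2 ^ k) * Psi a b) atTop
      (𝓝 ((2 * C₀ + 0) * Psi a b)) := by
    refine Tendsto.mul_const _ (Tendsto.const_add _ ?_)
    have h1 : Tendsto (fun k : ℕ => B * (1 / 2 : ℝ) ^ k) atTop (𝓝 (B * 0)) :=
      (tendsto_pow_atTop_nhds_zero_of_lt_one (by norm_num) (by norm_num)).const_mul B
    rw [mul_zero] at h1
    refine h1.congr fun k => ?_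
    rw [one_div, inv_pow, div_eq_mul_inv]
  rw [add_zero] at hlim
  exact ge_of_tendsto' hlim fun k => hiter k E hE g hg hg1 f hf hf1 a b ha hb hEa hfb

end Vale.Agent.P112.S408
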