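import Vale.Agent.P112.Bdl.B5

/-! P112, step F1: a uniform `L²` bound for the sums of the smooth pieces at scales below `2^{-L1}`
gives Stein's inequality (strong form, all `a ≤ 1`). -/

namespace Vale.Agent.P112.S408

open MeasureTheory Filter Topology Set Vale.Agent.P112
open scoped ENNReal NNReal

/-- The uniform bound for the sums of the pieces at scales at most `2^{-L1}`. -/
def SumBound (L1 : ℕ) : Prop :=
  ∃ C : ℝ, 0 < C ∧ ∀ v : Plane → Plane, LipschitzWith 1 v → (∀ x, ‖v x‖ = 1) →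
    ∀ l0 n : ℕ, L1 ≤ l0 → ∀ F, CC F →
    sqn (∑ l ∈ Finset.range n, Tp v (sc (l0 + l)) F) ≤ ENNReal.ofReal (C ^ 2) * sqn F

lemma sqn_zero : sqn (0 : Plane → ℝ) = 0 := by simp [sqn]

lemma two_mul_ofReal (c : ℝ) (X : ℝ≥0∞) : 2 * (ENNReal.ofReal c * X) = ENNReal.ofReal (2 * c) * X := by
  rw [ENNReal.ofReal_mul zero_le_two, mul_assoc]; simp

/-- crude bound for `n` pieces -/
lemma crude {v : Plane → Plane} (hvl : LipschitzWith 1 v) (hvu : ∀ x, ‖v x‖ = 1) (l0 : ℕ)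
    (hl0 : 6 ≤ l0) (F : Plane → ℝ) (hF : CC F) (n : ℕ) :
    sqn (∑ l ∈ Finset.range n, Tp v (sc (l0 + l)) F) ≤
      ENNReal.ofReal (512 * 4 ^ n) * sqn F := by
  induction n with
  | zero => simp [sqn_zero]
  | succ n ih =>
    rw [Finset.sum_range_succ]
    have hm : Measurable (∑ l ∈ Finset.range n, Tp v (sc (l0 + l)) F) :=
      final_measurable_sum hvl.continuous hF.1 l0 n
    have h1 := final_sqn_add (G := Tp v (sc (l0 + n)) F) hm
    have h2 := sqn_Tp_le hvl hvu (sc_pos (l0 + n)) (sc_le (l := l0 + n) (by omega)) hF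
    have h4 : (1 : ℝ) ≤ 4 ^ n := one_le_pow₀ (by norm_num)
    calc sqn (∑ l ∈ Finset.range n, Tp v (sc (l0 + l)) F + Tp v (sc (l0 + n)) F)
        ≤ 2 * sqn (∑ l ∈ Finset.range n, Tp v (sc (l0 + l)) F) + 2 * sqn (Tp v (sc (l0 + n)) F) := h1
      _ ≤ 2 * (ENNReal.ofReal (512 * 4 ^ n) * sqn F) + 2 * (ENNReal.ofReal (16 ^ 2) * sqn F) := by
          gcongr
      _ = ENNReal.ofReal (2 * (512 * 4 ^ n) + 2 * 16 ^ 2) * sqn F := by
          rw [two_mul_ofReal, two_mul_ofReal, ← add_mul, ← ENNReal.ofReal_add (by positivity)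
            (by positivity)]
      _ ≤ ENNReal.ofReal (512 * 4 ^ (n + 1)) * sqn F := by
          gcongr
          have h5 : (4 : ℝ) ^ (n + 1) = 4 * 4 ^ n := by ring
          rw [h5]
          linarith

/-- The bound for scales below `2^{-L1}` gives the bound for scales below `1/64`. -/
theorem SumBound.mono {L1 : ℕ} (h : SumBound L1) : SumBound 6 := by
  obtain ⟨C, hC, h⟩ := h
  refine ⟨√(2 * (512 * 4 ^ L1) + 2 * C ^ 2), by positivity, ?_⟩
  intro v hvl hvu l0 n hl0 F hF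
  rw [Real.sq_sqrt (by positivity)]
  by_cases hn : n ≤ L1
  · refine (crude hvl hvu l0 hl0 F hF n).trans ?_
    gcongr
    have : (4 : ℝ) ^ n ≤ 4 ^ L1 := pow_le_pow_right₀ (by norm_num) hn
    have h4 : (0 : ℝ) ≤ 4 ^ L1 := by positivity
    nlinarith [sq_nonneg C]
  · obtain ⟨k, rfl⟩ := Nat.exists_eq_add_of_le (le_of_not_ge hn)
    rw [Finset.sum_range_add]
    have hm : Measurable (∑ l ∈ Finset.range L1, Tp v (sc (l0 + l)) F) :=
      final_measurable_sum hvl.continuous hF.1 l0 L1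
    have h1 := final_sqn_add (G := ∑ l ∈ Finset.range k, Tp v (sc (l0 + (L1 + l))) F) hm
    have h2 := crude hvl hvu l0 hl0 F hF L1
    have h3 := h v hvl hvu (l0 + L1) k (by omega) F hF
    simp only [add_assoc] at h3
    calc sqn (∑ l ∈ Finset.range L1, Tp v (sc (l0 + l)) F +
          ∑ l ∈ Finset.range k, Tp v (sc (l0 + (L1 + l))) F)
        ≤ 2 * sqn (∑ l ∈ Finset.range L1, Tp v (sc (l0 + l)) F) +
          2 * sqn (∑ l ∈ Finset.range k, Tp v (sc (l0 + (L1 + l))) F) := h1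
      _ ≤ 2 * (ENNReal.ofReal (512 * 4 ^ L1) * sqn F) + 2 * (ENNReal.ofReal (C ^ 2) * sqn F) := by
          gcongr
      _ = ENNReal.ofReal (2 * (512 * 4 ^ L1) + 2 * C ^ 2) * sqn F := by
          rw [two_mul_ofReal, two_mul_ofReal, ← add_mul, ← ENNReal.ofReal_add (by positivity)
            (by positivity)]

/-- The strong bound for the principal value from the bound for the sums of the pieces. -/
theorem strong_of_sumBound (h : SumBound 6) : ∃ C : ℝ, 0 < C ∧
    ∀ (v : Plane → Plane), LipschitzWith 1 v → (∀ x, ‖v x‖ = 1) →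
    ∀ a : ℝ, 0 < a → a ≤ 1 → ∀ f : SchwartzMap Plane ℂ,
      ∫⁻ x, ‖hilbert v a f x‖ₑ ^ 2 ≤ ENNReal.ofReal (C * ∫ x, ‖f x‖ ^ 2) := by
  obtain ⟨C₁, hC₁, h1⟩ := h
  obtain ⟨C₂, hC₂, h2⟩ := tail_bound
  refine ⟨2 * (C₁ ^ 2 + C₂ ^ 2), by positivity, ?_⟩
  intro v hvl hvu a ha ha1 f
  obtain ⟨l0, hl0, h3⟩ := h2 a ha ha1
  obtain ⟨Kf, hf⟩ := schwartz_lipschitz f
  have hre := final_part hvl hvu hl0 (fun n => h1 v hvl hvu l0 n hl0) (h3 v hvl hvu)
    (g := fun y => (f y).re) (G := fun x => (pvInt v a f x).re)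
    (Complex.continuous_re.comp hf.continuous) (fun x => tendsto_re hf hvu x ha l0)
  have him := final_part hvl hvu hl0 (fun n => h1 v hvl hvu l0 n hl0) (h3 v hvl hvu)
    (g := fun y => (f y).im) (G := fun x => (pvInt v a f x).im)
    (Complex.continuous_im.comp hf.continuous) (fun x => tendsto_im hf hvu x ha l0)
  have hmre : Measurable fun y => (f y).re :=
    (Complex.continuous_re.comp hf.continuous).measurable
  calc ∫⁻ x, ‖hilbert v a f x‖ₑ ^ 2
      = ∫⁻ x, (‖(pvInt v a f x).re‖ₑ ^ 2 + ‖(pvInt v a f x).im‖ₑ ^ 2) := by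
        refine lintegral_congr fun x => ?_
        rw [hilbert_eq hf v hvu x a]
        exact final_normsq _
    _ = sqn (fun x => (pvInt v a f x).re) + sqn (fun x => (pvInt v a f x).im) := by
        exact lintegral_add_left (hre.1.enorm.pow_const 2) _
    _ ≤ ENNReal.ofReal (2 * (C₁ ^ 2 + C₂ ^ 2)) * sqn (fun y => (f y).re) +
        ENNReal.ofReal (2 * (C₁ ^ 2 + C₂ ^ 2)) * sqn (fun y => (f y).im) :=
        add_le_add hre.2 him.2
    _ = ENNReal.ofReal (2 * (C₁ ^ 2 + C₂ ^ 2)) * ∫⁻ x, ‖f x‖ₑ ^ 2 := by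
        rw [← mul_add]
        congr 1
        have : ∫⁻ x, ‖f x‖ₑ ^ 2 = ∫⁻ x, (‖(f x).re‖ₑ ^ 2 + ‖(f x).im‖ₑ ^ 2) :=
          lintegral_congr fun x => final_normsq _
        rw [this]
        exact (lintegral_add_left (hmre.enorm.pow_const 2) _).symm
    _ = ENNReal.ofReal (2 * (C₁ ^ 2 + C₂ ^ 2) * ∫ x, ‖f x‖ ^ 2) := by
        rw [final_lintegral_sq, ← ENNReal.ofReal_mul (by positivity)]

/-- Step F1. The sum bound at any scale gives the full answer to Q1 in strong form: one constant for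
all unit 1-Lipschitz fields and all `0 < a ≤ 1`; the principal values exist, and the strong and the
weak (2,2) inequalities hold. -/
theorem stein_of_sumBound {L1 : ℕ} (h : SumBound L1) : ∃ C : ℝ, 0 < C ∧
    ∀ a : ℝ, 0 < a → a ≤ 1 → SteinHolds a C ∧
      ∀ v : Plane → Plane, (∀ x, ‖v x‖ = 1) → LipschitzWith 1 v → StrongType v a C ∧
        ∀ f : SchwartzMap Plane ℂ, ∀ x,
          Tendsto (fun ε => truncHilbert v ε a f x) (𝓝[>] (0 : ℝ)) (𝓝 (hilbert v a f x)) := by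
  obtain ⟨C, hC, h⟩ := strong_of_sumBound h.mono
  refine ⟨C, hC, fun a ha ha1 => ⟨?_, fun v hvu hvl => ⟨?_, fun f x => ?_⟩⟩⟩
  · rw [steinHolds_iff]
    intro v hvu hvl
    exact weak_of_strong hvl hvu ha hC.le (h v hvl hvu a ha ha1)
  · rintro F ⟨f, rfl⟩
    have h2 := h v hvl hvu a ha ha1 f
    rw [l2sq_schwartz, ← ENNReal.ofReal_mul hC.le]
    exact h2
  · obtain ⟨Kf, hf⟩ := schwartz_lipschitz f
    rw [hilbert_eq hf v hvu x a]
    exact tendsto_trunc hf v hvu x a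

end Vale.Agent.P112.S408
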