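import Vale.Agent.P112.Bdl.B5

/-! P112, step F2, part S1: from the graph form of the bound on `ℝ × ℝ` (fields `(1, u)` with `u`
small and with small Lipschitz constant) to the fields `e + u e^⊥` in the plane, at small scales. -/

namespace Vale.Agent.P112.S408

open MeasureTheory Filter Topology Set Vale.Agent.P112
open scoped ENNReal NNReal RealInnerProductSpace

/-- The graph form of the uniform bound: the sums of the pieces along the fields `(1, u)`,
`u` being `ε₀`-Lipschitz and bounded by `ε₀`, at the scales `1, 1/2, …, 2^{-(n-1)}`. -/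
def GraphBound (ε₀ : ℝ≥0) : Prop :=
  ∃ C : ℝ, 0 < C ∧ ∀ u : ℝ × ℝ → ℝ, LipschitzWith ε₀ u → (∀ p, |u p| ≤ ε₀) →
    ∀ n : ℕ, ∀ F : ℝ × ℝ → ℝ, Continuous F → HasCompactSupport F →
    ∫⁻ p : ℝ × ℝ, ‖∑ l ∈ Finset.range n,
        ∫ t : ℝ, eta (sc l) t * F (p.1 - t, p.2 - t * u p)‖ₑ ^ 2 ≤
      ENNReal.ofReal (C ^ 2) * ∫⁻ p : ℝ × ℝ, ‖F p‖ₑ ^ 2

/-- coordinates with respect to an orthonormal basis -/
noncomputable def cmb (b : OrthonormalBasis (Fin 2) ℝ Plane) (q : ℝ × ℝ) : Plane :=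
  q.1 • b 0 + q.2 • b 1

lemma continuous_cmb (b : OrthonormalBasis (Fin 2) ℝ Plane) : Continuous (cmb b) := by
  unfold cmb; fun_prop

lemma cmb_inner (b : OrthonormalBasis (Fin 2) ℝ Plane) (z : Plane) :
    cmb b (⟪b 0, z⟫, ⟪b 1, z⟫) = z := by
  have h := b.sum_repr' z
  rw [Fin.sum_univ_two] at h
  exact h

lemma lintegral_cmb (b : OrthonormalBasis (Fin 2) ℝ Plane) (G : Plane → ℝ≥0∞)
    (hG : Measurable G) : ∫⁻ q : ℝ × ℝ, G (cmb b q) = ∫⁻ z : Plane, G z := by
  rw [← far_lintegral_basis b (fun q => G (cmb b q)) (hG.comp (continuous_cmb b).measurable)]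
  simp only [cmb_inner]

lemma lintegral_scale (s : ℝ) (hs : 0 < s) (G : ℝ × ℝ → ℝ≥0∞) (hG : Measurable G) :
    ∫⁻ q : ℝ × ℝ, G q = ENNReal.ofReal s * ∫⁻ q : ℝ × ℝ, G (s * q.1, q.2) := by
  rw [Measure.volume_eq_prod, lintegral_prod_symm' _ hG, lintegral_prod_symm' _ (by fun_prop),
    ← lintegral_const_mul _ (by fun_prop)]
  refine lintegral_congr fun y => ?_
  have hm : Measurable (fun x : ℝ => G (x, y)) := by fun_prop
  have h := lintegral_map (μ := volume) hm (measurable_const_mul s)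
  rw [Real.map_volume_mul_left hs.ne', lintegral_smul_measure] at h
  rw [← h, smul_eq_mul, ← mul_assoc, ← ENNReal.ofReal_mul hs.le, abs_of_pos (by positivity),
    mul_inv_cancel₀ hs.ne', ENNReal.ofReal_one, one_mul]

lemma lintegral_cs (b : OrthonormalBasis (Fin 2) ℝ Plane) (s : ℝ) (hs : 0 < s)
    (G : Plane → ℝ≥0∞) (hG : Measurable G) :
    ∫⁻ z : Plane, G z = ENNReal.ofReal s * ∫⁻ p : ℝ × ℝ, G (cmb b (s * p.1, p.2)) := by
  rw [← lintegral_cmb b _ hG]
  exact lintegral_scale s hs (fun q => G (cmb b q)) (hG.comp (continuous_cmb b).measurable)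

lemma eta_scale {s : ℝ} (hs : 0 < s) (L t : ℝ) : s * eta (s * L) (s * t) = eta L t := by
  unfold eta
  rw [mul_div_mul_left _ _ hs.ne']
  rcases eq_or_ne t 0 with rfl | ht
  · simp
  · field_simp

lemma integral_eta_scale {s : ℝ} (hs : 0 < s) (L : ℝ) (G : ℝ → ℝ) :
    ∫ t, eta (s * L) t * G t = ∫ t, eta L t * G (s * t) := by
  have h := Measure.integral_comp_mul_left (fun t => eta (s * L) t * G t) s
  simp only [smul_eq_mul] at h
  have h2 : ∫ t, eta (s * L) t * G t = s * ∫ t, eta (s * L) (s * t) * G (s * t) := by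
    rw [h, abs_of_pos (by positivity), ← mul_assoc, mul_inv_cancel₀ hs.ne', one_mul]
  rw [h2, ← integral_const_mul]
  refine integral_congr_ae (Eventually.of_forall fun t => ?_)
  simp only
  rw [← mul_assoc, eta_scale hs]

/-- the field `e + u e^⊥` in the orthonormal basis `b = (e, e^⊥)`. -/
noncomputable def gf (b : OrthonormalBasis (Fin 2) ℝ Plane) (u : Plane → ℝ) (x : Plane) : Plane :=
  b 0 + u x • b 1

lemma continuous_gf (b : OrthonormalBasis (Fin 2) ℝ Plane) {u : Plane → ℝ} (hu : Continuous u) :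
    Continuous (gf b u) := by
  unfold gf; fun_prop

lemma sc_add (l0 l : ℕ) : sc (l0 + l) = sc l0 * sc l := by unfold sc; rw [pow_add]

lemma inner_cmb0 (b : OrthonormalBasis (Fin 2) ℝ Plane) (q : ℝ × ℝ) : ⟪b 0, cmb b q⟫ = q.1 := by
  have h := b.orthonormal
  have h00 : ⟪b 0, b 0⟫ = (1 : ℝ) := by rw [real_inner_self_eq_norm_sq, h.1 0]; norm_num
  have h01 : ⟪b 0, b 1⟫ = (0 : ℝ) := h.2 (by decide)
  unfold cmb
  rw [inner_add_right, real_inner_smul_right, real_inner_smul_right, h00, h01]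
  ring

lemma inner_cmb1 (b : OrthonormalBasis (Fin 2) ℝ Plane) (q : ℝ × ℝ) : ⟪b 1, cmb b q⟫ = q.2 := by
  have h := b.orthonormal
  have h00 : ⟪b 1, b 1⟫ = (1 : ℝ) := by rw [real_inner_self_eq_norm_sq, h.1 1]; norm_num
  have h01 : ⟪b 1, b 0⟫ = (0 : ℝ) := h.2 (by decide)
  unfold cmb
  rw [inner_add_right, real_inner_smul_right, real_inner_smul_right, h00, h01]
  ring

lemma norm_cmb_le (b : OrthonormalBasis (Fin 2) ℝ Plane) (q : ℝ × ℝ) :
    ‖cmb b q‖ ≤ |q.1| + |q.2| := by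
  unfold cmb
  refine (norm_add_le _ _).trans ?_
  rw [norm_smul, norm_smul, b.norm_eq_one, b.norm_eq_one, mul_one, mul_one]
  rfl

lemma cmb_sub (b : OrthonormalBasis (Fin 2) ℝ Plane) (q r : ℝ × ℝ) :
    cmb b q - cmb b r = cmb b (q - r) := by
  unfold cmb
  simp only [Prod.fst_sub, Prod.snd_sub, sub_smul]
  abel

/-- The graph bound gives the bound for the fields `e + u e^⊥` at small scales. -/
theorem planeGraph {ε₀ : ℝ≥0} (hε : 0 < ε₀) (h : GraphBound ε₀) :
    ∃ C : ℝ, 0 < C ∧ ∃ m : ℕ, ∀ b : OrthonormalBasis (Fin 2) ℝ Plane, ∀ u : Plane → ℝ,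
      LipschitzWith 2 u → (∀ x, |u x| ≤ 1) → ∀ l0 n : ℕ, m ≤ l0 → ∀ F, CC F →
      sqn (∑ l ∈ Finset.range n, Tp (gf b u) (sc (l0 + l)) F) ≤
        ENNReal.ofReal (C ^ 2) * sqn F := by
  obtain ⟨C, hC, h⟩ := h
  obtain ⟨m, hm⟩ := exists_pow_lt_of_lt_one (show (0 : ℝ) < ε₀ / 4 by positivity)
    (show (1 / 2 : ℝ) < 1 by norm_num)
  refine ⟨C, hC, m, ?_⟩
  intro b u hul hub l0 n hl0 F hF
  have hs : 0 < sc l0 := sc_pos l0
  have hs4 : 4 * sc l0 ≤ ε₀ := by
    have h1 : sc l0 ≤ sc m := sc_mono hl0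
    have h2 : sc m < ε₀ / 4 := hm
    linarith
  set s := sc l0 with hsdef
  have hΨc : Continuous (fun p : ℝ × ℝ => cmb b (s * p.1, p.2)) :=
    (continuous_cmb b).comp (by fun_prop)
  have hul' : LipschitzWith ε₀ (fun p : ℝ × ℝ => s * u (cmb b (s * p.1, p.2))) := by
    refine LipschitzWith.of_dist_le_mul fun p q => ?_
    have h1 := hul.dist_le_mul (cmb b (s * p.1, p.2)) (cmb b (s * q.1, q.2))
    rw [dist_eq_norm (cmb b _), cmb_sub] at h1
    have h2 := norm_cmb_le b ((s * p.1, p.2) - (s * q.1, q.2))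
    simp only [Prod.mk_sub_mk] at h2
    have h3 : |p.1 - q.1| ≤ dist p q := by
      rw [← Real.dist_eq]; exact le_max_left _ _
    have h4 : |p.2 - q.2| ≤ dist p q := by
      rw [← Real.dist_eq]; exact le_max_right _ _
    have hd : 0 ≤ dist p q := dist_nonneg
    have h5 : |s * p.1 - s * q.1| ≤ dist p q := by
      rw [← mul_sub, abs_mul, abs_of_pos hs]
      have : s ≤ 1 := by
        rw [hsdef]; unfold sc; exact pow_le_one₀ (by norm_num) (by norm_num)
      nlinarith [abs_nonneg (p.1 - q.1)]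
    rw [Real.dist_eq, ← mul_sub, abs_mul, abs_of_pos hs]
    rw [Real.dist_eq] at h1
    have h6 : ((2 : ℝ≥0) : ℝ) = 2 := rfl
    rw [h6] at h1
    have h7 : |u (cmb b (s * p.1, p.2)) - u (cmb b (s * q.1, q.2))| ≤ 4 * dist p q := by
      simp only [Prod.mk_sub_mk] at h1
      linarith
    calc s * |u (cmb b (s * p.1, p.2)) - u (cmb b (s * q.1, q.2))| ≤ s * (4 * dist p q) := by
          gcongr
      _ = (4 * s) * dist p q := by ring
      _ ≤ ε₀ * dist p q := by gcongr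
  have hub' : ∀ p : ℝ × ℝ, |s * u (cmb b (s * p.1, p.2))| ≤ ε₀ := by
    intro p
    rw [abs_mul, abs_of_pos hs]
    have := hub (cmb b (s * p.1, p.2))
    nlinarith
  have hFc : Continuous (fun p : ℝ × ℝ => F (cmb b (s * p.1, p.2))) := hF.1.comp hΨc
  have hFs : HasCompactSupport (fun p : ℝ × ℝ => F (cmb b (s * p.1, p.2))) := by
    have hK : IsCompact ((fun z : Plane => (s⁻¹ * ⟪b 0, z⟫, ⟪b 1, z⟫)) '' tsupport F) :=
      IsCompact.image hF.2 (by fun_prop)
    refine HasCompactSupport.intro hK fun p hp => ?_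
    by_contra hne
    apply hp
    refine ⟨cmb b (s * p.1, p.2), subset_tsupport _ hne, ?_⟩
    simp only
    rw [inner_cmb0, inner_cmb1, ← mul_assoc, inv_mul_cancel₀ hs.ne', one_mul]
  have hmain := h _ hul' hub' n _ hFc hFs
  have hmeas : Measurable (∑ l ∈ Finset.range n, Tp (gf b u) (sc (l0 + l)) F) :=
    final_measurable_sum (continuous_gf b hul.continuous) hF.1 l0 n
  have hL : sqn (∑ l ∈ Finset.range n, Tp (gf b u) (sc (l0 + l)) F) =
      ENNReal.ofReal s * ∫⁻ p : ℝ × ℝ, ‖∑ l ∈ Finset.range n,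
        ∫ t : ℝ, eta (sc l) t * F (cmb b (s * (p.1 - t),
          p.2 - t * (s * u (cmb b (s * p.1, p.2)))))‖ₑ ^ 2 := by
    unfold sqn
    rw [lintegral_cs b s hs _ (hmeas.enorm.pow_const 2)]
    congr 1
    refine lintegral_congr fun p => ?_
    congr 2
    rw [Finset.sum_apply]
    refine Finset.sum_congr rfl fun l _ => ?_
    unfold Tp
    rw [sc_add, ← hsdef, integral_eta_scale hs]
    refine integral_congr_ae (Eventually.of_forall fun t => ?_)
    simp only
    congr 2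
    unfold cmb gf
    simp only [smul_add, sub_smul, mul_sub, smul_smul]
    have h1 : ∀ a : ℝ, s * t * a = t * (s * a) := fun a => by ring
    rw [← h1]
    abel
  have hR : sqn F = ENNReal.ofReal s * ∫⁻ p : ℝ × ℝ, ‖F (cmb b (s * p.1, p.2))‖ₑ ^ 2 := by
    unfold sqn
    have hm : Measurable (fun z : Plane => ‖F z‖ₑ ^ 2) := hF.1.measurable.enorm.pow_const 2
    rw [lintegral_cs b s hs _ hm]
  rw [hL, hR, ← mul_assoc, mul_comm (ENNReal.ofReal (C ^ 2)), mul_assoc]
  gcongr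

end Vale.Agent.P112.S408
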